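import Vale.Agent.P184.Twist.Main
import Mathlib.Topology.MetricSpace.Basic
import Mathlib.Analysis.Asymptotics.SpecificAsymptotics

/-!
P184: elements with positive translation length in an isometric action on a space with the
quadrilateral (non-positive curvature) inequality have zero coefficient.
-/

namespace Vale.P184.Twist

open Filter Topology

variable {G : Type*} [Group G] {g : G} {q : ℕ} {e : Fin q → Fin q → G → ℂ}

theorem abs_increment_sub_le {X : Type*} [PseudoMetricSpace X]
    (hquad : ∀ x y z w : X, dist x z ^ 2 + dist y w ^ 2 - dist x w ^ 2 - dist y z ^ 2 ≤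
      2 * dist x y * dist z w) (y o A B : X) :
    |(dist y A - dist y B) - (dist o A - dist o B)| * dist o B ≤ 4 * dist y o * dist A B := by
  have hp : |(dist y A - dist y B) * (dist y A + dist y B) -
      (dist o A - dist o B) * (dist o A + dist o B)| ≤ 2 * dist y o * dist A B := by
    have h1 := hquad y o A B
    have h2 := hquad y o B A
    rw [dist_comm B A] at h2
    rw [abs_le]
    constructor <;> nlinarith
  have hu : |dist y A - dist y B| ≤ dist A B := by
    have h := abs_dist_sub_le A B y
    rwa [dist_comm A y, dist_comm B y] at h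
  have hS : |(dist o A + dist o B) - (dist y A + dist y B)| ≤ 2 * dist y o := by
    have h1 := abs_dist_sub_le o y A
    have h2 := abs_dist_sub_le o y B
    rw [dist_comm o y] at h1 h2
    rw [abs_le] at *
    constructor <;> linarith [h1.1, h1.2, h2.1, h2.2]
  have hle : dist o B ≤ dist o A + dist o B := le_add_of_nonneg_left dist_nonneg
  refine (mul_le_mul_of_nonneg_left hle (abs_nonneg _)).trans ?_
  rw [← abs_of_nonneg (show 0 ≤ dist o A + dist o B by positivity), ← abs_mul]
  have hid : ((dist y A - dist y B) - (dist o A - dist o B)) * (dist o A + dist o B) =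
      ((dist y A - dist y B) * (dist y A + dist y B) -
        (dist o A - dist o B) * (dist o A + dist o B)) +
      (dist y A - dist y B) * ((dist o A + dist o B) - (dist y A + dist y B)) := by ring
  rw [hid]
  refine (abs_add_le _ _).trans ?_
  rw [abs_mul (dist y A - dist y B)]
  nlinarith [mul_le_mul hu hS (abs_nonneg _) dist_nonneg, abs_nonneg (dist y A - dist y B)]

/-- A hyperbolic isometry of a non-positively curved space has zero coefficient, whatever its
centraliser; the action need not be proper. -/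
theorem hsCoeff_eq_zero_of_action {X : Type*} [PseudoMetricSpace X] [MulAction G X]
    (hiso : ∀ (a : G) (x y : X), dist (a • x) (a • y) = dist x y)
    (hquad : ∀ x y z w : X, dist x z ^ 2 + dist y w ^ 2 - dist x w ^ 2 - dist y z ^ 2 ≤
      2 * dist x y * dist z w)
    (o : X) {ε : ℝ} (hε : 0 < ε) (hg : ∀ j : ℕ, ε * j ≤ dist o (g ^ j • o))
    (he : IsL1Idempotent e) : hsCoeff e (ConjClasses.mk g).carrier = 0 := by
  let ℓ : G → ℝ := fun a => dist o (a • o)
  have hmove : ∀ (a : G) (x : X), dist o (a • x) = dist (a⁻¹ • o) x := fun a x => by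
    rw [← hiso a⁻¹ o (a • x), inv_smul_smul]
  have hinv : ∀ a, ℓ a⁻¹ = ℓ a := fun a => by
    show dist o (a⁻¹ • o) = dist o (a • o)
    rw [hmove, inv_inv, dist_comm]
  have hadd : ∀ a b, ℓ (a * b) ≤ ℓ a + ℓ b := fun a b => by
    refine (dist_triangle o (a • o) ((a * b) • o)).trans (le_of_eq ?_)
    rw [mul_smul, hiso]
  let d : G → ℕ → ℝ := fun c j => dist o ((g ^ j * c) • o) - dist o (g ^ j • o)
  have hd : ∀ c j, |d c j| ≤ ℓ c := fun c j => by
    have h := abs_dist_sub_le ((g ^ j * c) • o) (g ^ j • o) o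
    rw [dist_comm ((g ^ j * c) • o) o, dist_comm (g ^ j • o) o, mul_smul, hiso, dist_comm (c • o) o] at h
    simpa only [d, mul_smul] using h
  have hadd0 : ∀ a b, Commute a g → Tendsto (fun j => d (a * b) j - (d a j + d b j)) atTop (𝓝 0) := by
    intro a b ha
    have h0 : Tendsto (fun j : ℕ => 4 * ℓ a * ℓ b / (ε * j)) atTop (𝓝 0) :=
      Tendsto.div_atTop tendsto_const_nhds (tendsto_natCast_atTop_atTop.const_mul_atTop hε)
    refine squeeze_zero_norm' ?_ h0
    filter_upwards [eventually_gt_atTop 0] with j hj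
    have hpos : 0 < ε * (j : ℝ) := mul_pos hε (Nat.cast_pos.2 hj)
    have key := abs_increment_sub_le hquad (a⁻¹ • o) o ((g ^ j * b) • o) (g ^ j • o)
    have e1 : dist o ((g ^ j * (a * b)) • o) = dist (a⁻¹ • o) ((g ^ j * b) • o) := by
      rw [← mul_assoc, ← (ha.pow_right j).eq, mul_assoc, mul_smul, hmove]
    have e2 : dist o ((g ^ j * a) • o) = dist (a⁻¹ • o) (g ^ j • o) := by
      rw [← (ha.pow_right j).eq, mul_smul, hmove]
    have e3 : dist (a⁻¹ • o) o = ℓ a := by rw [dist_comm]; exact hinv a
    have e4 : dist ((g ^ j * b) • o) (g ^ j • o) = ℓ b := by rw [mul_smul, hiso, dist_comm]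
    rw [← e1, ← e2, e3, e4] at key
    rw [le_div_iff₀ hpos, Real.norm_eq_abs]
    refine le_trans (mul_le_mul_of_nonneg_left (hg j) (abs_nonneg _)) (le_trans (le_of_eq ?_) key)
    congr 2
    simp only [d]
    ring
  let av : ℕ → G → ℝ := fun N c => (∑ j ∈ Finset.range (N + 1), d c j) / ((N : ℝ) + 1)
  have hN : ∀ N : ℕ, (0 : ℝ) < (N : ℝ) + 1 := fun N => by positivity
  have hav : ∀ N c, |av N c| ≤ ℓ c := fun N c => by
    rw [abs_div, abs_of_pos (hN N), div_le_iff₀ (hN N)]
    refine (Finset.abs_sum_le_sum_abs _ _).trans ?_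
    refine (Finset.sum_le_card_nsmul _ _ (ℓ c) fun j _ => hd c j).trans (le_of_eq ?_)
    rw [Finset.card_range, nsmul_eq_mul]
    push_cast; ring
  let U : Ultrafilter ℕ := Ultrafilter.of atTop
  have hK : IsCompact (Set.pi Set.univ fun c : G => Set.Icc (-ℓ c) (ℓ c)) :=
    isCompact_univ_pi fun _ => isCompact_Icc
  obtain ⟨χ, hχK, hχ⟩ := hK.ultrafilter_le_nhds (U.map av) (by
    rw [Ultrafilter.coe_map, le_principal_iff, mem_map]
    exact Eventually.of_forall fun N => fun c _ => abs_le.1 (hav N c))
  have hlim : ∀ c, Tendsto (fun N => av N c) U (𝓝 (χ c)) := fun c =>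
    ((continuous_apply c).tendsto χ).comp hχ
  have hU : (U : Filter ℕ) ≤ atTop := Ultrafilter.of_le _
  refine hsCoeff_eq_zero (ℓ := ℓ) (χ := χ)
    ⟨hadd, hinv, fun a b ha _ => ?_, fun c _ => abs_le.2 (hχK c (Set.mem_univ c))⟩ ?_ he
  · refine sub_eq_zero.1 (tendsto_nhds_unique ((hlim (a * b)).sub ((hlim a).add (hlim b))) ?_)
    have h1 := ((hadd0 a b ha).cesaro.comp (tendsto_add_atTop_nat 1)).mono_left hU
    refine h1.congr fun N => ?_
    simp only [Function.comp_apply, av, Finset.sum_sub_distrib, Finset.sum_add_distrib]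
    push_cast
    field_simp
  · have h1 : ∀ N, ε ≤ av N g := fun N => by
      simp only [av, d, ← pow_succ]
      rw [Finset.sum_range_sub (fun j => dist o (g ^ j • o)), le_div_iff₀ (hN N)]
      have := hg (N + 1)
      push_cast at this
      simpa using this
    have h2 : ε ≤ χ g := ge_of_tendsto (hlim g) (Eventually.of_forall h1)
    exact (hε.trans_le h2).ne'

end Vale.P184.Twist
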