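import Vale.Agent.P184.Twist.Places
import Mathlib.NumberTheory.NumberField.InfinitePlace.Embeddings
import Mathlib.NumberTheory.Padics.Complex
import Mathlib.Topology.Algebra.Module.Cardinality
import Mathlib.RingTheory.Algebraic.Cardinality
import Mathlib.Analysis.Complex.Cardinality

/-!
P184: algebraic eigenvalues which are not roots of unity; reduction to countable subgroups.
-/

namespace Vale.P184.Twist

open Cardinal

theorem countable_adjoin (F : Type*) {E : Type*} [Field F] [Field E] [Algebra F E] [Countable F]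
    {s : Set E} (hs : s.Countable) : Countable (IntermediateField.adjoin F s) := by
  rw [← Cardinal.mk_le_aleph0_iff, ← Cardinal.lift_le_aleph0]
  refine (IntermediateField.lift_cardinalMk_adjoin_le F s).trans ?_
  simp [hs.le_aleph0, Cardinal.mk_le_aleph0]

/-- A countable field extension embeds into any uncountable algebraically closed one. -/
theorem nonempty_algHom (F K Ω : Type*) [Field F] [Field K] [Field Ω] [Algebra F K] [Algebra F Ω]
    [IsAlgClosed Ω] [Countable F] [Countable K] [Uncountable Ω] : Nonempty (K →ₐ[F] Ω) := by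
  obtain ⟨B, hB⟩ := exists_isTranscendenceBasis F K
  obtain ⟨C, hC⟩ := exists_isTranscendenceBasis F Ω
  haveI : Infinite C := by
    by_contra h
    rw [not_infinite_iff_finite] at h
    haveI := hC.isAlgebraic_field
    haveI := countable_adjoin F (Set.countable_range ((↑) : C → Ω))
    have h1 := Algebra.IsAlgebraic.lift_cardinalMk_le_max (IntermediateField.adjoin F (Set.range ((↑) : C → Ω))) Ω
    have h2 : #Ω ≤ ℵ₀ := by
      rw [← Cardinal.lift_le_aleph0]
      exact h1.trans (max_le (Cardinal.lift_le_aleph0.2 Cardinal.mk_le_aleph0) le_rfl)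
    rw [Cardinal.mk_le_aleph0_iff] at h2
    exact not_countable h2
  obtain ⟨e⟩ : Nonempty (B ↪ C) := by
    obtain ⟨f, hf⟩ := Countable.exists_injective_nat B
    exact ⟨(⟨f, hf⟩ : B ↪ ℕ).trans (Infinite.natEmbedding C)⟩
  have hy : AlgebraicIndependent F (((↑) : C → Ω) ∘ e) := hC.1.comp e e.injective
  let φ : IntermediateField.adjoin F (Set.range ((↑) : B → K)) →ₐ[F] Ω :=
    ((IntermediateField.adjoin F (Set.range (((↑) : C → Ω) ∘ e))).val.comp hy.aevalEquivField.toAlgHom).comp
      hB.1.aevalEquivField.symm.toAlgHom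
  haveI := hB.isAlgebraic_field
  letI := φ.toRingHom.toAlgebra
  haveI : IsScalarTower F (IntermediateField.adjoin F (Set.range ((↑) : B → K))) Ω :=
    IsScalarTower.of_algebraMap_eq fun a => (φ.commutes a).symm
  exact ⟨(IsAlgClosed.lift : K →ₐ[IntermediateField.adjoin F (Set.range ((↑) : B → K))] Ω).restrictScalars F⟩

/-- A monic polynomial with all roots in the unit ball has all coefficients there. -/
theorem norm_coeff_le_one {Ω : Type*} [NormedField Ω] [IsUltrametricDist Ω] (s : Multiset Ω)
    (hs : ∀ x ∈ s, ‖x‖ ≤ 1) : ∀ n, ‖(Multiset.map (fun a => Polynomial.X - Polynomial.C a) s).prod.coeff n‖ ≤ 1 := by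
  induction s using Multiset.induction_on with
  | empty => intro n; simp only [Multiset.map_zero, Multiset.prod_zero, Polynomial.coeff_one]; split_ifs <;> simp
  | cons a s ih =>
    intro n
    have ha := hs a (Multiset.mem_cons_self a s)
    have h := ih fun x hx => hs x (Multiset.mem_cons_of_mem hx)
    rw [Multiset.map_cons, Multiset.prod_cons, sub_mul, Polynomial.coeff_sub, Polynomial.coeff_C_mul,
      sub_eq_add_neg]
    refine (IsUltrametricDist.norm_add_le_max _ _).trans (max_le ?_ ?_)
    · cases n with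
      | zero => simp
      | succ n => rw [Polynomial.coeff_X_mul]; exact h n
    · rw [norm_neg, norm_mul]
      exact mul_le_one₀ ha (norm_nonneg _) (h n)

/-- An algebraic number which is not a root of unity is off the unit circle of an absolute value
on any countable field containing it. -/
theorem exists_abs_of_isAlgebraic_rat {K : Type*} [Field K] [CharZero K] [Countable K] (r : K)
    (hr : IsAlgebraic ℚ r) (hr0 : r ≠ 0) (hr1 : ¬ IsOfFinOrder r) :
    ∃ v : AbsoluteValue K ℝ, v r ≠ 1 := by
  have hint : IsIntegral ℚ r := hr.isIntegral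
  haveI := IntermediateField.adjoin.finiteDimensional hint
  set L := IntermediateField.adjoin ℚ ({r} : Set K)
  haveI : Countable L := Function.Injective.countable (f := ((↑) : L → K)) Subtype.val_injective
  have key : ∀ (Ω : Type) [NormedField Ω] [IsAlgClosed Ω] [Uncountable Ω] [Algebra ℚ Ω] (z : Ω),
      Polynomial.aeval z (minpoly ℚ r) = 0 → ‖z‖ ≠ 1 → ∃ v : AbsoluteValue K ℝ, v r ≠ 1 := by
    intro Ω _ _ _ _ z hz hz1
    let φ : L →ₐ[ℚ] Ω := (IntermediateField.adjoin.powerBasis hint).lift z (by
      rw [IntermediateField.adjoin.powerBasis_gen, IntermediateField.minpoly_gen]; exact hz)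
    letI := φ.toRingHom.toAlgebra
    obtain ⟨ψ⟩ := nonempty_algHom L K Ω
    refine ⟨(NormedField.toAbsoluteValue Ω).comp (f := ψ.toRingHom) ψ.injective, ?_⟩
    show ‖ψ r‖ ≠ 1
    have h1 : ψ r = φ (IntermediateField.AdjoinSimple.gen ℚ r) := ψ.commutes (IntermediateField.AdjoinSimple.gen ℚ r)
    have h2 : φ (IntermediateField.AdjoinSimple.gen ℚ r) = z := by
      rw [← IntermediateField.adjoin.powerBasis_gen hint]; exact PowerBasis.lift_gen ..
    rwa [h1, h2]
  haveI : Uncountable ℂ := by
    rw [← Cardinal.aleph0_lt_mk_iff, Cardinal.mk_complex]; exact Cardinal.aleph0_lt_continuum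
  by_cases hC : ∃ z : ℂ, Polynomial.aeval z (minpoly ℚ r) = 0 ∧ ‖z‖ ≠ 1
  · obtain ⟨z, hz, hz1⟩ := hC
    exact key ℂ z hz hz1
  push_neg at hC
  by_cases hden : ∀ n, ((minpoly ℚ r).coeff n).den = 1
  · exfalso
    obtain ⟨Q, hQ, -, hQm⟩ := Polynomial.lifts_and_degree_eq_and_monic
      (f := algebraMap ℤ ℚ) (p := minpoly ℚ r)
      ((Polynomial.lifts_iff_coeff_lifts _).2 fun n => ⟨((minpoly ℚ r).coeff n).num,
        by simpa using Rat.coe_int_num_of_den_eq_one (hden n)⟩) (minpoly.monic hint)
    have hrZ : IsIntegral ℤ (IntermediateField.AdjoinSimple.gen ℚ r) := by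
      refine ⟨Q, hQm, ?_⟩
      rw [← Polynomial.aeval_def, ← Polynomial.aeval_map_algebraMap ℚ, hQ,
        ← IntermediateField.minpoly_gen ℚ r]
      exact minpoly.aeval _ _
    haveI : NumberField L := { to_charZero := inferInstance, to_finiteDimensional := inferInstance }
    obtain ⟨k, hk, hk1⟩ := NumberField.Embeddings.pow_eq_one_of_norm_eq_one L ℂ hrZ fun φ => by
      apply hC
      have := Polynomial.aeval_algHom_apply φ.toRatAlgHom (IntermediateField.AdjoinSimple.gen ℚ r) (minpoly ℚ r)
      rw [← IntermediateField.minpoly_gen ℚ r] at this ⊢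
      exact this.trans ((congrArg φ.toRatAlgHom (minpoly.aeval _ _)).trans (map_zero _))
    refine hr1 (isOfFinOrder_iff_pow_eq_one.2 ⟨k, hk, ?_⟩)
    simpa using congrArg ((↑) : L → K) hk1
  push_neg at hden
  obtain ⟨n, hn⟩ := hden
  obtain ⟨p, hp, hpd⟩ := Nat.exists_prime_and_dvd hn
  haveI : Fact p.Prime := ⟨hp⟩
  haveI : Uncountable (PadicAlgCl p) := by
    haveI : Uncountable ℚ_[p] := by
      rw [← Cardinal.aleph0_lt_mk_iff]
      exact Cardinal.aleph0_lt_continuum.trans_le (continuum_le_cardinal_of_nontriviallyNormedField ℚ_[p])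
    exact Function.Injective.uncountable (algebraMap ℚ_[p] (PadicAlgCl p)).injective
  by_contra hno
  set P := (minpoly ℚ r).map (algebraMap ℚ (PadicAlgCl p))
  have hroots : ∀ z ∈ P.roots, ‖z‖ ≤ 1 := by
    intro z hz
    have hz' : Polynomial.aeval z (minpoly ℚ r) = 0 := by
      rw [Polynomial.aeval_def, ← Polynomial.eval_map]; exact (Polynomial.mem_roots'.1 hz).2
    by_contra hlt
    exact hno (key (PadicAlgCl p) z hz' fun h => hlt h.le)
  have hcoef := norm_coeff_le_one P.roots hroots n
  rw [← (IsAlgClosed.splits P).eq_prod_roots_of_monic ((minpoly.monic hint).map _), Polynomial.coeff_map,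
    IsScalarTower.algebraMap_apply ℚ ℚ_[p] (PadicAlgCl p)] at hcoef
  rw [PadicAlgCl.norm_extends, eq_ratCast] at hcoef
  set a := (minpoly ℚ r).coeff n
  have hnum : ‖((a.num : ℤ) : ℚ_[p])‖ = 1 := by
    refine le_antisymm (Padic.norm_int_le_one _) (not_lt.1 fun h => ?_)
    rw [Padic.norm_intCast_lt_one_iff] at h
    exact hp.not_dvd_one (a.reduced ▸ Nat.dvd_gcd (Int.natCast_dvd.1 h) hpd)
  have hd : ‖((a.den : ℕ) : ℚ_[p])‖ < 1 := Padic.norm_natCast_lt_one_iff.2 hpd
  have hd0 : 0 < ‖((a.den : ℕ) : ℚ_[p])‖ := norm_pos_iff.2 (Nat.cast_ne_zero.2 a.den_ne_zero)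
  rw [Rat.cast_def, norm_div, hnum, div_le_one hd0] at hcoef
  exact absurd hcoef (not_le.2 hd)

variable {G : Type*} [Group G] {g : G} {q : ℕ} {e : Fin q → Fin q → G → ℂ}

/-- It suffices to kill the coefficient on countable subgroups. -/
theorem hsCoeff_eq_zero_of_countable (he : IsL1Idempotent e)
    (h : ∀ H : Subgroup G, Countable H → ∀ x : H, IsConj g (x : G) →
      ∀ e' : Fin q → Fin q → H → ℂ, IsL1Idempotent e' →
        hsCoeff e' (ConjClasses.mk x).carrier = 0) :
    hsCoeff e (ConjClasses.mk g).carrier = 0 := by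
  set S : Set G := ⋃ i, ⋃ j, Function.support (e i j)
  have hS : S.Countable := Set.countable_iUnion fun i => Set.countable_iUnion fun j =>
    (he.1 i j).of_norm.countable_support
  set H := Subgroup.closure S
  haveI : Countable H := by
    haveI := hS.to_subtype
    have h2 : Function.Surjective (fun w : FreeGroup S => (⟨FreeGroup.lift Subtype.val w, by
        have h3 : FreeGroup.lift (Subtype.val : S → G) w ∈ (FreeGroup.lift (Subtype.val : S → G)).range := ⟨w, rfl⟩
        rwa [FreeGroup.range_lift_eq_closure, Subtype.range_coe] at h3⟩ : H)) := by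
      rintro ⟨x, hx⟩
      have h3 : x ∈ (FreeGroup.lift (Subtype.val : S → G)).range := by
        rw [FreeGroup.range_lift_eq_closure, Subtype.range_coe]; exact hx
      obtain ⟨w, rfl⟩ := h3
      exact ⟨w, rfl⟩
    exact h2.countable
  have hsupp : ∀ i j x, x ∉ H → e i j x = 0 := fun i j x hx => by
    by_contra hne
    exact hx (Subgroup.subset_closure (Set.mem_iUnion.2 ⟨i, Set.mem_iUnion.2 ⟨j, hne⟩⟩))
  let e' : Fin q → Fin q → H → ℂ := fun i j x => e i j x
  have he' : IsL1Idempotent e' := by
    refine ⟨fun i j => (he.1 i j).comp_injective Subtype.val_injective, fun i j x => ?_⟩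
    show _ = e i j x
    rw [← he.2 i j x]
    refine Finset.sum_congr rfl fun k _ => ?_
    exact Subtype.val_injective.tsum_eq (f := fun y : G => e i k y * e k j (y⁻¹ * x)) fun y hy =>
      ⟨⟨y, by_contra fun h => hy (by simp [hsupp i k y h])⟩, rfl⟩
  unfold hsCoeff
  set C := (ConjClasses.mk g).carrier
  let D : Set H := Subtype.val ⁻¹' C
  have h1 : ∑' x : C, ∑ i, e i i x = ∑' x : D, ∑ i, e' i i x := by
    refine (Function.Injective.tsum_eq (g := fun x : D => (⟨((x : H) : G), x.2⟩ : C)) ?_ ?_).symm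
    · intro x y hxy; exact Subtype.ext (Subtype.ext (congrArg (fun z : C => (z : G)) hxy))
    · intro x hx
      have : (x : G) ∈ H := by_contra fun hn => hx (by simp [hsupp _ _ _ hn])
      exact ⟨⟨⟨x, this⟩, x.2⟩, rfl⟩
  rw [h1]
  let T : Set (ConjClasses H) := ConjClasses.mk '' D
  have hsum : Summable fun x : D => ∑ i, e' i i (x : H) :=
    (summable_sum fun i _ => (he'.1 i i).of_norm).subtype D
  let π : D → ConjClasses H := fun x => ConjClasses.mk (x : H)
  rw [← (Equiv.sigmaFiberEquiv π).tsum_eq]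
  refine (Summable.tsum_sigma ((Equiv.sigmaFiberEquiv π).summable_iff.2 hsum)).trans ?_
  refine (tsum_congr fun c => ?_).trans tsum_zero
  by_cases hc : ∃ x : D, π x = c
  · obtain ⟨x, rfl⟩ := hc
    have hconj : ∀ y : H, ConjClasses.mk y = π x → y ∈ D := by
      intro y hy
      have h2 := MonoidHom.map_isConj H.subtype (ConjClasses.mk_eq_mk_iff_isConj.1 hy)
      show (y : G) ∈ C
      rw [ConjClasses.mem_carrier_iff_mk_eq]
      exact (ConjClasses.mk_eq_mk_iff_isConj.2 h2).trans (ConjClasses.mem_carrier_iff_mk_eq.1 x.2)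
    let E : {y : D // π y = π x} ≃ (ConjClasses.mk (x : H)).carrier :=
      { toFun := fun y => ⟨(y : D), ConjClasses.mem_carrier_iff_mk_eq.2 y.2⟩
        invFun := fun y => ⟨⟨y, hconj y (ConjClasses.mem_carrier_iff_mk_eq.1 y.2)⟩,
          ConjClasses.mem_carrier_iff_mk_eq.1 y.2⟩
        left_inv := fun _ => rfl
        right_inv := fun _ => rfl }
    refine Eq.trans ?_ (h H inferInstance (x : H) (ConjClasses.mk_eq_mk_iff_isConj.1
      (ConjClasses.mem_carrier_iff_mk_eq.1 x.2)).symm e' he')
    exact E.tsum_eq fun y => ∑ i, e' i i (y : H)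
  · haveI : IsEmpty {y : D // π y = c} := ⟨fun y => hc ⟨y, y.2⟩⟩
    exact tsum_empty

/-- An eigenvalue in the algebraic closure which is not a root of unity kills the coefficient. -/
theorem hsCoeff_eq_zero_of_not_root_of_unity {K : Type*} [Field K] [IsAlgClosed K] {n : ℕ}
    (ρ : G →* GL (Fin n) K) (r : K) (hr : ((ρ g : Matrix (Fin n) (Fin n) K)).charpoly.IsRoot r)
    (hr1 : ¬ IsOfFinOrder r) (he : IsL1Idempotent e) :
    hsCoeff e (ConjClasses.mk g).carrier = 0 := by
  have hr0 : r ≠ 0 := by
    rintro rfl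
    refine Matrix.GeneralLinearGroup.det_ne_zero (ρ g) ?_
    rw [Matrix.det_eq_sign_charpoly_coeff, Polynomial.coeff_zero_eq_eval_zero, hr.eq_zero, mul_zero]
  obtain ⟨p, hp⟩ := CharP.exists K
  rcases eq_or_ne p 0 with rfl | hp0
  · haveI : CharZero K := CharP.charP_to_charZero K
    by_cases halg : IsAlgebraic ℚ r
    · refine hsCoeff_eq_zero_of_countable he fun H _ x hx e' he' => ?_
      let S : Set K := insert r (Set.range fun t : H × Fin n × Fin n => (ρ t.1 : Matrix (Fin n) (Fin n) K) t.2.1 t.2.2)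
      let K₀ := IntermediateField.adjoin ℚ S
      haveI : Countable K₀ := countable_adjoin ℚ ((Set.countable_range _).insert r)
      let r₀ : K₀ := ⟨r, IntermediateField.subset_adjoin _ _ (Set.mem_insert _ _)⟩
      let A : H →* Matrix (Fin n) (Fin n) K₀ :=
        { toFun := fun y => Matrix.of fun i j => ⟨(ρ y : Matrix (Fin n) (Fin n) K) i j,
            IntermediateField.subset_adjoin _ _ (Or.inr ⟨(y, i, j), rfl⟩)⟩
          map_one' := by
            ext i j
            simp [Matrix.one_apply]; split_ifs <;> simp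
          map_mul' := fun a b => by
            ext i j
            simp [Matrix.mul_apply] }
      let ρ₀ : H →* GL (Fin n) K₀ := A.toHomUnits
      have hmap : (ρ₀ x : Matrix (Fin n) (Fin n) K₀).map (algebraMap K₀ K) = (ρ x : Matrix (Fin n) (Fin n) K) := rfl
      have hroot : ((ρ₀ x : Matrix (Fin n) (Fin n) K₀)).charpoly.IsRoot r₀ := by
        rw [← Polynomial.isRoot_map_iff (f := algebraMap K₀ K) (algebraMap K₀ K).injective, ← Matrix.charpoly_map, hmap]
        obtain ⟨c, hc⟩ := isConj_iff.1 hx
        show ((ρ (x : G) : Matrix (Fin n) (Fin n) K)).charpoly.IsRoot r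
        rw [← hc, map_mul, map_mul, map_inv, Units.val_mul, Units.val_mul, Matrix.coe_units_inv, Matrix.charpoly_units_conj]
        exact hr
      obtain ⟨v, hv⟩ := exists_abs_of_isAlgebraic_rat r₀
        ((isAlgebraic_algebraMap_iff (algebraMap K₀ K).injective).1 halg)
        (fun h => hr0 (congrArg Subtype.val h))
        (fun h => hr1 ((algebraMap K₀ K).toMonoidHom.isOfFinOrder h))
      exact hsCoeff_eq_zero_of_eigenvalue v ρ₀ r₀ hroot hv he'
    · obtain ⟨v, hv⟩ := exists_abs_of_transcendental r halg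
      exact hsCoeff_eq_zero_of_eigenvalue v ρ r hr hv he
  · haveI : Fact p.Prime := ⟨(CharP.char_is_prime_or_zero K p).resolve_right hp0⟩
    refine hsCoeff_eq_zero_of_charP hp0 ρ (fun hfin => hr1 ?_) he
    obtain ⟨k, hk, hk1⟩ := isOfFinOrder_iff_pow_eq_one.1 hfin
    refine isOfFinOrder_iff_pow_eq_one.2 ⟨k, hk, ?_⟩
    have hev : Module.End.HasEigenvalue (Matrix.toLin' (ρ g : Matrix (Fin n) (Fin n) K)) r := by
      rw [Module.End.hasEigenvalue_iff_isRoot_charpoly, Matrix.charpoly_toLin']; exact hr
    have h1 := hev.pow k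
    obtain ⟨v, hv⟩ := h1.exists_hasEigenvector
    have h2 := hv.apply_eq_smul
    rw [← Matrix.toLin'_pow, ← Units.val_pow_eq_pow_val, hk1, Units.val_one, Matrix.toLin'_one, LinearMap.id_apply] at h2
    exact ((smul_left_injective K hv.2) (show (1 : K) • v = (r ^ k) • v by rw [one_smul]; exact h2)).symm

/-- The same for an eigenvalue in the algebraic closure of any field. -/
theorem hsCoeff_eq_zero_of_aroots {K : Type*} [Field K] {n : ℕ} (ρ : G →* GL (Fin n) K)
    (r : AlgebraicClosure K)
    (hr : r ∈ ((ρ g : Matrix (Fin n) (Fin n) K)).charpoly.aroots (AlgebraicClosure K))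
    (hr1 : ¬ IsOfFinOrder r) (he : IsL1Idempotent e) :
    hsCoeff e (ConjClasses.mk g).carrier = 0 := by
  refine hsCoeff_eq_zero_of_not_root_of_unity
    ((Matrix.GeneralLinearGroup.map (algebraMap K (AlgebraicClosure K))).comp ρ) r ?_ hr1 he
  show ((ρ g : Matrix (Fin n) (Fin n) K).map (algebraMap K _)).charpoly.IsRoot r
  rw [Matrix.charpoly_map]
  exact (Polynomial.mem_roots'.1 hr).2

end Vale.P184.Twist
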