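import Vale.Agent.P184.Twist.Main

/-!
P184: undistorted elements with amenable centraliser have zero coefficient.
-/

namespace Vale.P184.Twist

open Filter Topology

variable {G : Type*} [Group G] {g : G} {q : ℕ} {e : Fin q → Fin q → G → ℂ}

/-- Averaging over Følner sets turns undistortion into a dominated character. -/
theorem hsCoeff_eq_zero_of_folner (ℓ : G → ℝ) (hadd : ∀ a b, ℓ (a * b) ≤ ℓ a + ℓ b)
    (hinv : ∀ a, ℓ a⁻¹ = ℓ a) {ε : ℝ} (hε : 0 < ε) (hg : ∀ j : ℤ, ε * |(j : ℝ)| ≤ ℓ (g ^ j))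
    (hF : ∀ (s : Finset G), (∀ c ∈ s, Commute c g) → ∀ δ > (0 : ℝ), ∃ F : Finset G, F.Nonempty ∧
      (∀ x ∈ F, Commute x g) ∧ ∀ c ∈ s, ∀ f : G → ℝ, (∀ x, |f x| ≤ 1) →
        |∑ x ∈ F, f (c * x) - ∑ x ∈ F, f x| ≤ δ * F.card)
    (he : IsL1Idempotent e) : hsCoeff e (ConjClasses.mk g).carrier = 0 := by
  classical
  have hl0 : ∀ a, 0 ≤ ℓ a := fun a => by
    have h1 := hadd a a⁻¹
    have h2 := hadd 1 1
    rw [hinv, mul_inv_cancel] at h1
    rw [one_mul] at h2
    linarith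
  let ψ : G → ℝ := fun x => ⨅ j : ℤ, (ε * j + ℓ (x * g ^ (-j)))
  have hbdd : ∀ x, BddBelow (Set.range fun j : ℤ => ε * j + ℓ (x * g ^ (-j))) := fun x =>
    ⟨-ℓ x, by
      rintro _ ⟨j, rfl⟩
      have h1 := hadd x⁻¹ (x * g ^ (-j))
      rw [inv_mul_cancel_left, hinv] at h1
      have h2 := hg (-j)
      push_cast at h2
      rw [abs_neg] at h2
      nlinarith [neg_abs_le (j : ℝ)]⟩
  have hlip : ∀ a x, ψ (a * x) ≤ ℓ a + ψ x := fun a x => by
    rw [← sub_le_iff_le_add']
    refine le_ciInf fun j => ?_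
    rw [sub_le_iff_le_add']
    refine (ciInf_le (hbdd (a * x)) j).trans ?_
    have := hadd a (x * g ^ (-j))
    rw [← mul_assoc] at this
    linarith
  have habs : ∀ a x, |ψ (a * x) - ψ x| ≤ ℓ a := fun a x => by
    have h1 := hlip a x
    have h2 := hlip a⁻¹ (a * x)
    rw [inv_mul_cancel_left, hinv] at h2
    rw [abs_le]; constructor <;> linarith
  have hshift : ∀ x, ψ (x * g) = ψ x + ε := fun x => by
    refine le_antisymm ?_ ?_
    · rw [← sub_le_iff_le_add]
      refine le_ciInf fun j => ?_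
      rw [sub_le_iff_le_add]
      refine (ciInf_le (hbdd (x * g)) (j + 1)).trans (le_of_eq ?_)
      rw [neg_add_rev, zpow_add, zpow_neg_one, ← mul_assoc, mul_inv_cancel_right]
      push_cast; ring
    · refine le_ciInf fun j => ?_
      have h1 := ciInf_le (hbdd x) (j - 1)
      have h2 : x * g ^ (-(j - 1)) = x * g * g ^ (-j) := by
        rw [neg_sub, sub_eq_add_neg, zpow_add, zpow_one, mul_assoc]
      rw [h2] at h1
      push_cast at h1
      change ψ x + ε ≤ _
      linarith [show ψ x ≤ ε * ((j : ℝ) - 1) + ℓ (x * g * g ^ (-j)) from h1]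
  let P := Finset {c : G // Commute c g} × ℕ
  have hFP : ∀ p : P, ∃ F : Finset G, F.Nonempty ∧ (∀ x ∈ F, Commute x g) ∧
      ∀ c ∈ p.1.image Subtype.val, ∀ f : G → ℝ, (∀ x, |f x| ≤ 1) →
        |∑ x ∈ F, f (c * x) - ∑ x ∈ F, f x| ≤ (1 / ((p.2 : ℝ) + 1)) * F.card := fun p =>
    hF _ (fun c hc => by obtain ⟨d, -, rfl⟩ := Finset.mem_image.1 hc; exact d.2) _ (by positivity)
  choose F hF0 hFc hFd using hFP
  let av : P → G → ℝ := fun p c => (∑ x ∈ F p, (ψ (c * x) - ψ x)) / (F p).card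
  have hcard : ∀ p, (0 : ℝ) < (F p).card := fun p => Nat.cast_pos.2 (hF0 p).card_pos
  have hav : ∀ p c, |av p c| ≤ ℓ c := fun p c => by
    rw [abs_div, abs_of_pos (hcard p), div_le_iff₀ (hcard p)]
    refine (Finset.abs_sum_le_sum_abs _ _).trans ?_
    refine (Finset.sum_le_card_nsmul _ _ (ℓ c) fun x _ => habs c x).trans (le_of_eq ?_)
    rw [nsmul_eq_mul, mul_comm]
  let U : Ultrafilter P := Ultrafilter.of atTop
  have hK : IsCompact (Set.pi Set.univ fun c : G => Set.Icc (-ℓ c) (ℓ c)) :=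
    isCompact_univ_pi fun _ => isCompact_Icc
  obtain ⟨χ, hχK, hχ⟩ := hK.ultrafilter_le_nhds (U.map av) (by
    rw [Ultrafilter.coe_map, le_principal_iff, mem_map]
    exact Eventually.of_forall fun p => fun c _ => abs_le.1 (hav p c))
  have hlim : ∀ c, Tendsto (fun p => av p c) U (𝓝 (χ c)) := fun c =>
    ((continuous_apply c).tendsto χ).comp hχ
  have hU : (U : Filter P) ≤ atTop := Ultrafilter.of_le _
  refine hsCoeff_eq_zero (ℓ := ℓ) (χ := χ)
    ⟨hadd, hinv, fun a b ha hb => ?_, fun c _ => abs_le.2 (hχK c (Set.mem_univ c))⟩ ?_ he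
  · refine sub_eq_zero.1 (tendsto_nhds_unique ((hlim (a * b)).sub ((hlim a).add (hlim b))) ?_)
    have h0 : Tendsto (fun p : P => (ℓ a + 1) * (1 / ((p.2 : ℝ) + 1))) U (𝓝 0) := by
      have h1 := (tendsto_one_div_add_atTop_nhds_zero_nat (𝕜 := ℝ)).const_mul (ℓ a + 1)
      rw [mul_zero] at h1
      have h2 : Tendsto (fun p : P => p.2) atTop atTop := by
        rw [← prod_atTop_atTop_eq]; exact tendsto_snd
      exact (h1.comp h2).mono_left hU
    refine squeeze_zero_norm' ?_ h0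
    filter_upwards [hU (eventually_ge_atTop (({⟨b, hb⟩} : Finset {c : G // Commute c g}), 0))] with p hp
    have hmem : b ∈ p.1.image Subtype.val :=
      Finset.mem_image.2 ⟨⟨b, hb⟩, hp.1 (Finset.mem_singleton_self _), rfl⟩
    have hl : 0 < ℓ a + 1 := by linarith [hl0 a]
    have hd := hFd p b hmem (fun x => (ψ (a * x) - ψ x) / (ℓ a + 1)) fun x => by
      rw [abs_div, abs_of_pos hl, div_le_one hl]; linarith [habs a x]
    rw [← Finset.sum_div, ← Finset.sum_div, ← sub_div, abs_div, abs_of_pos hl, div_le_iff₀ hl] at hd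
    have hid : av p (a * b) - (av p a + av p b) =
        (∑ x ∈ F p, (ψ (a * (b * x)) - ψ (b * x)) - ∑ x ∈ F p, (ψ (a * x) - ψ x)) / (F p).card := by
      simp only [av, mul_assoc, Finset.sum_sub_distrib]; field_simp; ring
    rw [Real.norm_eq_abs, hid, abs_div, abs_of_pos (hcard p), div_le_iff₀ (hcard p)]
    linarith
  · have h1 : ∀ p, av p g = ε := fun p => by
      simp only [av]
      rw [div_eq_iff (hcard p).ne', Finset.sum_congr rfl fun x hx => show ψ (g * x) - ψ x = ε by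
        rw [← (hFc p x hx).eq, hshift]; ring]
      simp [mul_comm]
    have h2 : χ g = ε := tendsto_nhds_unique (hlim g) (by simp only [h1]; exact tendsto_const_nhds)
    rw [h2]; exact hε.ne'

end Vale.P184.Twist
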