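import Vale.Agent.P184.Twist.Main

/-!
P184: sources of dominated characters: eigenvalues off the unit circle of an absolute value, and
undistorted elements with virtually cyclic centraliser.
-/

namespace Vale.P184.Twist

open Finset

section Linear

variable {K : Type*} [Field K] (v : AbsoluteValue K ℝ) {m n p : ℕ}

/-- The sum of the absolute values of the entries. -/
noncomputable def size (M : Matrix (Fin m) (Fin n) K) : ℝ := ∑ i, ∑ j, v (M i j)

theorem size_nonneg (M : Matrix (Fin m) (Fin n) K) : 0 ≤ size v M :=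
  sum_nonneg fun _ _ => sum_nonneg fun _ _ => v.nonneg _

theorem le_size (M : Matrix (Fin m) (Fin n) K) (i : Fin m) (j : Fin n) : v (M i j) ≤ size v M :=
  (single_le_sum (f := fun j => v (M i j)) (fun _ _ => v.nonneg _) (mem_univ j)).trans
    (single_le_sum (f := fun i => ∑ j, v (M i j))
      (fun _ _ => sum_nonneg fun _ _ => v.nonneg _) (mem_univ i))

theorem size_mul (M : Matrix (Fin m) (Fin n) K) (N : Matrix (Fin n) (Fin p) K) :
    size v (M * N) ≤ size v M * size v N := by
  calc size v (M * N) ≤ ∑ i, ∑ j, ∑ k, v (M i k) * v (N k j) := by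
        refine sum_le_sum fun i _ => sum_le_sum fun j _ => ?_
        rw [Matrix.mul_apply]
        exact (v.sum_le _ _).trans (le_of_eq (sum_congr rfl fun k _ => v.map_mul _ _))
    _ = ∑ i, ∑ k, v (M i k) * ∑ j, v (N k j) := by
        refine sum_congr rfl fun i _ => ?_
        rw [sum_comm]; simp only [mul_sum]
    _ ≤ ∑ i, ∑ k, v (M i k) * size v N := by
        refine sum_le_sum fun i _ => sum_le_sum fun k _ => mul_le_mul_of_nonneg_left ?_ (v.nonneg _)
        exact single_le_sum (f := fun k => ∑ j, v (N k j))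
          (fun _ _ => sum_nonneg fun _ _ => v.nonneg _) (mem_univ k)
    _ = _ := by simp only [size, sum_mul]

theorem det_le_size (M : Matrix (Fin m) (Fin m) K) :
    v M.det ≤ (Nat.factorial m : ℝ) * size v M ^ m := by
  rw [Matrix.det_apply]
  refine (v.sum_le _ _).trans ((sum_le_card_nsmul _ _ (size v M ^ m) fun σ _ => ?_).trans ?_)
  · have h : v (Equiv.Perm.sign σ • ∏ i, M (σ i) i) = v (∏ i, M (σ i) i) := by
      rcases Int.units_eq_one_or (Equiv.Perm.sign σ) with h | h <;> simp [h]
    rw [h, map_prod]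
    refine (prod_le_prod (fun i _ => v.nonneg _) fun i _ => le_size v M (σ i) i).trans (le_of_eq ?_)
    simp
  · rw [card_univ, Fintype.card_perm, Fintype.card_fin, nsmul_eq_mul]

variable {G : Type*} [Group G] {g : G} {q : ℕ} {e : Fin q → Fin q → G → ℂ}

/-- An eigenvalue of `ρ g` off the unit circle of some absolute value kills the coefficient. -/
theorem hsCoeff_eq_zero_of_eigenvalue (ρ : G →* GL (Fin n) K) (r : K)
    (hr : ((ρ g : Matrix (Fin n) (Fin n) K)).charpoly.IsRoot r) (hv : v r ≠ 1)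
    (he : IsL1Idempotent e) : hsCoeff e (ConjClasses.mk g).carrier = 0 := by
  classical
  let A : G → Matrix (Fin n) (Fin n) K := fun c => (ρ c : Matrix (Fin n) (Fin n) K)
  have hA1 : A 1 = 1 := by simp [A]
  have hAmul : ∀ a b, A (a * b) = A a * A b := fun a b => by simp [A]
  let f := Matrix.toLin' (A g)
  have hev : Module.End.HasEigenvalue f r := by
    rw [Module.End.hasEigenvalue_iff_isRoot_charpoly, Matrix.charpoly_toLin']
    exact hr
  let W := Module.End.eigenspace f r
  set m := Module.finrank K W with hm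
  have hmpos : 0 < m := by
    rw [hm, Module.finrank_pos_iff]
    exact Submodule.nontrivial_iff_ne_bot.2 hev
  let b : Module.Basis (Fin m) K W := Module.finBasis K W
  let ι : (Fin m → K) →ₗ[K] (Fin n → K) := W.subtype.comp b.equivFun.symm.toLinearMap
  have hι : LinearMap.ker ι = ⊥ :=
    LinearMap.ker_eq_bot.2 (Subtype.val_injective.comp b.equivFun.symm.injective)
  obtain ⟨π, hπ⟩ := ι.exists_leftInverse_of_injective hι
  have hπ' : ∀ x, π (ι x) = x := fun x => LinearMap.congr_fun hπ x
  have hrange : ∀ w ∈ W, ι (π w) = w := by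
    intro w hw
    obtain ⟨x, hx⟩ := b.equivFun.symm.surjective ⟨w, hw⟩
    have : ι x = w := by simp [ι, hx]
    rw [← this, hπ']
  let φ : G → (Fin m → K) →ₗ[K] (Fin m → K) := fun c => π ∘ₗ Matrix.toLin' (A c) ∘ₗ ι
  have hιmem : ∀ x, ι x ∈ W := fun x => (b.equivFun.symm x).2
  have hpres : ∀ c, Commute c g → ∀ w ∈ W, Matrix.toLin' (A c) w ∈ W := by
    intro c hc w hw
    rw [Module.End.mem_eigenspace_iff] at hw ⊢
    simp only [f, Matrix.toLin'_apply, Matrix.mulVec_mulVec, ← hAmul] at hw ⊢
    rw [← hc.eq, hAmul, ← Matrix.mulVec_mulVec, hw, Matrix.mulVec_smul]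
  have hφmul : ∀ a c, Commute c g → φ (a * c) = φ a ∘ₗ φ c := by
    intro a c hc
    refine LinearMap.ext fun x => ?_
    simp only [φ, LinearMap.comp_apply, hAmul, Matrix.toLin'_mul]
    rw [hrange _ (hpres c hc _ (hιmem x))]
  have hφ1 : φ 1 = LinearMap.id := LinearMap.ext fun x => by
    simp [φ, hA1, hπ']
  have hφg : φ g = r • LinearMap.id := by
    refine LinearMap.ext fun x => ?_
    have hx := Module.End.mem_eigenspace_iff.1 (hιmem x)
    simp only [φ, LinearMap.comp_apply, LinearMap.smul_apply, LinearMap.id_apply]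
    show π (f (ι x)) = r • x
    rw [hx, map_smul, hπ']
  let χ : G → ℝ := fun c => Real.log (v (LinearMap.det (φ c)))
  have hdet : ∀ c, Commute c g → v (LinearMap.det (φ c)) ≠ 0 := by
    intro c hc h0
    have h1 := congrArg LinearMap.det (hφmul c⁻¹ c hc)
    rw [inv_mul_cancel, hφ1, LinearMap.det_id, LinearMap.det_comp, v.eq_zero.1 h0, mul_zero] at h1
    exact one_ne_zero h1
  have hadd : ∀ a c, Commute a g → Commute c g → χ (a * c) = χ a + χ c := by
    intro a c ha hc
    simp only [χ, hφmul a c hc, LinearMap.det_comp, map_mul]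
    exact Real.log_mul (hdet a ha) (hdet c hc)
  let M : G → ℝ := fun h => max 1 (max (size v (A h)) (size v (A h⁻¹)))
  have hM1 : ∀ h, 1 ≤ M h := fun h => le_max_left _ _
  have hM0 : ∀ h, 0 < M h := fun h => one_pos.trans_le (hM1 h)
  let L : G → ℝ := fun h => (m : ℝ) * Real.log (M h)
  have hMmul : ∀ a c, M (a * c) ≤ M a * M c := by
    intro a c
    have l1 : ∀ h, size v (A h) ≤ M h := fun h => (le_max_left _ _).trans (le_max_right _ _)
    have l2 : ∀ h, size v (A h⁻¹) ≤ M h := fun h => (le_max_right _ _).trans (le_max_right _ _)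
    refine max_le (one_le_mul_of_one_le_of_one_le (hM1 a) (hM1 c)) (max_le ?_ ?_)
    · rw [hAmul]
      exact (size_mul v _ _).trans (mul_le_mul (l1 a) (l1 c) (size_nonneg v _) (hM0 a).le)
    · rw [mul_inv_rev, hAmul, mul_comm (M a)]
      exact (size_mul v _ _).trans (mul_le_mul (l2 c) (l2 a) (size_nonneg v _) (hM0 c).le)
  have hLadd : ∀ a c, L (a * c) ≤ L a + L c := by
    intro a c
    simp only [L]
    rw [← mul_add, ← Real.log_mul (hM0 a).ne' (hM0 c).ne']
    exact mul_le_mul_of_nonneg_left (Real.log_le_log (hM0 _) (hMmul a c)) (Nat.cast_nonneg m)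
  have hLinv : ∀ a, L a⁻¹ = L a := fun a => by simp only [L, M, inv_inv, max_comm (size v (A a⁻¹))]
  set D : ℝ := max 1 ((Nat.factorial m : ℝ) *
    (size v (LinearMap.toMatrix' π) * size v (LinearMap.toMatrix' ι)) ^ m) with hD
  have hD1 : 1 ≤ D := le_max_left _ _
  have hupper : ∀ c, Commute c g → χ c ≤ Real.log D + L c := by
    intro c hc
    simp only [χ, L]
    rw [← Real.log_pow, ← Real.log_mul (by linarith) (pow_ne_zero _ (hM0 c).ne')]
    refine Real.log_le_log (lt_of_le_of_ne (v.nonneg _) (hdet c hc).symm) ?_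
    rw [← LinearMap.det_toMatrix']
    refine (det_le_size v _).trans ?_
    have h1 : size v (LinearMap.toMatrix' (φ c)) ≤
        size v (LinearMap.toMatrix' π) * size v (LinearMap.toMatrix' ι) * M c := by
      simp only [φ, LinearMap.toMatrix'_comp, LinearMap.toMatrix'_toLin']
      refine (size_mul v _ _).trans ?_
      rw [mul_assoc]
      refine mul_le_mul_of_nonneg_left ((size_mul v _ _).trans ?_) (size_nonneg v _)
      rw [mul_comm (size v (LinearMap.toMatrix' ι))]
      exact mul_le_mul_of_nonneg_right ((le_max_left _ _).trans (le_max_right _ _)) (size_nonneg v _)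
    refine (mul_le_mul_of_nonneg_left (pow_le_pow_left₀ (size_nonneg v _) h1 m)
      (Nat.cast_nonneg _)).trans ?_
    rw [mul_pow, ← mul_assoc]
    exact mul_le_mul_of_nonneg_right (le_max_right _ _) (pow_nonneg (hM0 c).le m)
  have hχ1 : χ 1 = 0 := by simp [χ, hφ1]
  have habs : ∀ c, Commute c g → |χ c| ≤ Real.log D + L c := by
    intro c hc
    refine abs_le.2 ⟨?_, hupper c hc⟩
    have h1 := hadd c c⁻¹ hc hc.inv_left
    rw [mul_inv_cancel, hχ1] at h1
    have h2 := hupper c⁻¹ hc.inv_left
    rw [hLinv] at h2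
    linarith
  have hle : ∀ c, Commute c g → |χ c| ≤ L c := by
    intro c hc
    by_contra hlt
    rw [not_le] at hlt
    obtain ⟨j, hj⟩ := exists_nat_gt (Real.log D / (|χ c| - L c))
    have hχj : ∀ j : ℕ, χ (c ^ j) = j * χ c := by
      intro j
      induction j with
      | zero => simp [hχ1]
      | succ j ih => rw [pow_succ, hadd _ _ (hc.pow_left j) hc, ih]; push_cast; ring
    have hLj : ∀ j : ℕ, L (c ^ (j + 1)) ≤ (j + 1) * L c := by
      intro j
      induction j with
      | zero => simp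
      | succ j ih => rw [pow_succ]; push_cast; linarith [hLadd (c ^ (j + 1)) c]
    have h1 := habs _ (hc.pow_left (j + 1))
    rw [hχj, abs_mul, Nat.abs_cast] at h1
    rw [div_lt_iff₀ (by linarith)] at hj
    push_cast at h1
    nlinarith [hLj j]
  refine hsCoeff_eq_zero (ℓ := L) (χ := χ) ⟨hLadd, hLinv, hadd, hle⟩ ?_ he
  have hne := hdet g (Commute.refl g)
  simp only [χ, hφg, LinearMap.det_smul, LinearMap.det_id, mul_one, map_pow, Real.log_pow,
    Module.finrank_fin_fun] at hne ⊢
  refine mul_ne_zero (Nat.cast_ne_zero.2 hmpos.ne') ?_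
  have hr0 : 0 < v r := lt_of_le_of_ne (v.nonneg _) fun h => hne (by rw [← h, zero_pow hmpos.ne'])
  exact Real.log_ne_zero_of_pos_of_ne_one hr0 hv

end Linear

section Undistorted

variable {G : Type*} [Group G] {g : G} {q : ℕ} {e : Fin q → Fin q → G → ℂ}

/-- An undistorted element with virtually cyclic centraliser has zero coefficient. -/
theorem hsCoeff_eq_zero_of_undistorted (ℓ : G → ℝ) (hadd : ∀ a b, ℓ (a * b) ≤ ℓ a + ℓ b)
    (hinv : ∀ a, ℓ a⁻¹ = ℓ a) {ε : ℝ} (hε : 0 < ε) (hg : ∀ j : ℤ, ε * |(j : ℝ)| ≤ ℓ (g ^ j))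
    (hfin : ((Subgroup.zpowers g).subgroupOf (Subgroup.centralizer ({g} : Set G))).FiniteIndex)
    (hord : ¬ IsOfFinOrder g) (he : IsL1Idempotent e) :
    hsCoeff e (ConjClasses.mk g).carrier = 0 := by
  classical
  set C := Subgroup.centralizer ({g} : Set G)
  set H := (Subgroup.zpowers g).subgroupOf C
  have hinj : Function.Injective fun j : ℤ => g ^ j :=
    injective_zpow_iff_not_isOfFinOrder.2 hord
  have hmemH : ∀ x : H, ∃ j : ℤ, g ^ j = ((x : C) : G) := fun x =>
    Subgroup.mem_zpowers_iff.1 x.2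
  choose j hj using hmemH
  let φ : H →* Multiplicative ℤ := MonoidHom.mk' (fun x => Multiplicative.ofAdd (j x)) fun x y => by
    rw [← ofAdd_add]
    refine congrArg _ (hinj ?_)
    simp only [zpow_add, hj, Subgroup.coe_mul]
  haveI := hfin
  have key : ∀ (c : C) (k : ℕ) (a : C), a⁻¹ * c ^ k * a ∈ H → a⁻¹ * c ^ k * a = c ^ k := by
    intro c k a hk
    obtain ⟨i, hi⟩ := Subgroup.mem_zpowers_iff.1 (Subgroup.mem_subgroupOf.1 hk)
    have hcomm : Commute (a : G) (g ^ i) :=
      Commute.zpow_right (Subgroup.mem_centralizer_singleton_iff.1 a.2) i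
    refine Subtype.ext ?_
    have h1 : ((c ^ k : C) : G) = (a : G) * g ^ i * (a : G)⁻¹ := by
      rw [hi]; simp [mul_assoc]
    rw [hcomm.eq, mul_inv_cancel_right] at h1
    rw [h1, ← hi]
  have htr : ∀ c : C, Multiplicative.toAdd (MonoidHom.transfer φ c) =
      j ⟨c ^ H.index, MonoidHom.transfer_eq_pow_aux c (key c)⟩ := fun c => by
    rw [MonoidHom.transfer_eq_pow φ c (key c)]; rfl
  let χ : G → ℝ := fun c => if hc : Commute c g then
    ε * ((Multiplicative.toAdd (MonoidHom.transfer φ
      (⟨c, Subgroup.mem_centralizer_singleton_iff.2 hc⟩ : C)) : ℤ) : ℝ) else 0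
  have hk : 0 < H.index := Nat.pos_of_ne_zero Subgroup.FiniteIndex.index_ne_zero
  have hpow : ∀ (a : G) (k : ℕ), 0 < k → ℓ (a ^ k) ≤ k * ℓ a := by
    intro a k hk
    induction k, hk using Nat.le_induction with
    | base => simp
    | succ k hk ih => rw [pow_succ]; push_cast; linarith [hadd (a ^ k) a]
  refine hsCoeff_eq_zero (ℓ := fun a => (H.index : ℝ) * ℓ a) (χ := χ)
    ⟨fun a b => by rw [← mul_add]; exact mul_le_mul_of_nonneg_left (hadd a b) (Nat.cast_nonneg _),
      fun a => by rw [hinv], fun a b ha hb => ?_, fun c hc => ?_⟩ ?_ he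
  · have hab : Commute (a * b) g := ha.mul_left hb
    simp only [χ, dif_pos ha, dif_pos hb, dif_pos hab, ← mul_add, ← Int.cast_add, ← toAdd_mul,
      ← map_mul, MulMemClass.mk_mul_mk]
  · simp only [χ, dif_pos hc, htr, abs_mul, abs_of_pos hε]
    refine ((hg _).trans (le_of_eq ?_)).trans (hpow c _ hk)
    rw [hj]; rfl
  · simp only [χ, dif_pos (Commute.refl g), htr]
    refine mul_ne_zero hε.ne' (Int.cast_ne_zero.2 fun h => ?_)
    have h1 := hj ⟨(⟨g, Subgroup.mem_centralizer_singleton_iff.2 (Commute.refl g)⟩ : C) ^ H.index,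
      MonoidHom.transfer_eq_pow_aux _ (key _)⟩
    rw [h, zpow_zero] at h1
    exact hord (isOfFinOrder_iff_pow_eq_one.2 ⟨H.index, hk, by simpa using h1.symm⟩)

end Undistorted

end Vale.P184.Twist
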