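import Vale.Agent.P184.Statement

/-!
P184: the conditions on an element used in the vanishing theorem.
-/

namespace Vale.P184.Twist

universe u v

variable {G : Type u} [Group G]

/-- `ℓ` is subadditive and symmetric. -/
def IsLength (ℓ : G → ℝ) : Prop :=
  (∀ a b, ℓ (a * b) ≤ ℓ a + ℓ b) ∧ ∀ a, ℓ a⁻¹ = ℓ a

/-- The centraliser of `g` has a real character, bounded by a length function on `G`, nonzero at `g`. -/
def HasDominatedCharacter (g : G) : Prop :=
  ∃ ℓ χ : G → ℝ, IsLength ℓ ∧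
    (∀ a b, Commute a g → Commute b g → χ (a * b) = χ a + χ b) ∧
    (∀ c, Commute c g → |χ c| ≤ ℓ c) ∧ χ g ≠ 0

/-- Some linear representation gives `g` an eigenvalue which is not a root of unity. -/
def HasWildEigenvalue (g : G) : Prop :=
  ∃ (K : Type v) (_ : Field K) (n : ℕ) (ρ : G →* GL (Fin n) K) (r : AlgebraicClosure K),
    r ∈ ((ρ g : Matrix (Fin n) (Fin n) K)).charpoly.aroots (AlgebraicClosure K) ∧ ¬ IsOfFinOrder r

/-- Some isometric action on a space with the quadrilateral inequality translates `g`. -/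
def HasTranslation (g : G) : Prop :=
  ∃ (X : Type v) (_ : PseudoMetricSpace X) (_ : MulAction G X) (o : X) (ε : ℝ),
    (∀ (a : G) (x y : X), dist (a • x) (a • y) = dist x y) ∧
    (∀ x y z w : X, dist x z ^ 2 + dist y w ^ 2 - dist x w ^ 2 - dist y z ^ 2 ≤
      2 * dist x y * dist z w) ∧
    0 < ε ∧ ∀ j : ℕ, ε * j ≤ dist o (g ^ j • o)

/-- The centraliser of `g` has Følner sets. -/
def HasFolnerCentralizer (g : G) : Prop :=
  ∀ (s : Finset G), (∀ c ∈ s, Commute c g) → ∀ δ > (0 : ℝ), ∃ F : Finset G, F.Nonempty ∧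
    (∀ x ∈ F, Commute x g) ∧ ∀ c ∈ s, ∀ f : G → ℝ, (∀ x, |f x| ≤ 1) →
      |∑ x ∈ F, f (c * x) - ∑ x ∈ F, f x| ≤ δ * F.card

/-- `g` is undistorted and its centraliser is amenable or virtually generated by `g`. -/
def HasTameCentralizer (g : G) : Prop :=
  ∃ (ℓ : G → ℝ) (ε : ℝ), IsLength ℓ ∧ 0 < ε ∧ (∀ j : ℤ, ε * |(j : ℝ)| ≤ ℓ (g ^ j)) ∧
    (((Subgroup.zpowers g).subgroupOf (Subgroup.centralizer ({g} : Set G))).FiniteIndex ∨
      HasFolnerCentralizer g)

/-- The conditions under which the coefficient at the class of `g` is proved to vanish. -/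
def IsGood (g : G) : Prop :=
  HasDominatedCharacter g ∨ HasWildEigenvalue.{u, v} g ∨ HasTranslation.{u, v} g ∨
    HasTameCentralizer g

end Vale.P184.Twist
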