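import Mathlib

/-!
P184: algebras of right-equivariant kernels on a group, with a trace at a conjugacy class.
-/

namespace Vale.P184.Twist

open Function

variable {G : Type*} [Group G] {A : Type*} [NormedRing A] [CompleteSpace A]

/-- `N` dominates the kernel `K` along the differences `a * b⁻¹`. -/
structure Bd (K : G → G → A) (N : G → ℝ) : Prop where
  summable : Summable N
  bound : ∀ a b, ‖K a b‖ ≤ N (a * b⁻¹)

namespace Bd

variable {K L : G → G → A} {N M : G → ℝ}

theorem nonneg (h : Bd K N) (x : G) : 0 ≤ N x := by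
  simpa using (norm_nonneg _).trans (h.bound x 1)

theorem le_tsum (h : Bd K N) (x : G) : N x ≤ ∑' y, N y :=
  h.summable.le_tsum x fun y _ => h.nonneg y

theorem tsum_nonneg (h : Bd K N) : 0 ≤ ∑' y, N y := (h.nonneg 1).trans (h.le_tsum 1)

/-- The equivalence `c ↦ a * c⁻¹`. -/
def divL (a : G) : G ≃ G := (Equiv.inv G).trans (Equiv.mulLeft a)

theorem divL_apply (a c : G) : divL a c = a * c⁻¹ := rfl

theorem summable_mul (hK : Bd K N) (hL : Bd L M) (a b : G) :
    Summable fun c => K a c * L c b := by
  refine Summable.of_norm_bounded (g := fun c => N (a * c⁻¹) * ∑' y, M y) ?_ fun c => ?_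
  · exact (((divL a).summable_iff).2 hK.summable).mul_right _
  · exact (norm_mul_le _ _).trans (mul_le_mul (hK.bound a c) ((hL.bound c b).trans (hL.le_tsum _))
      (norm_nonneg _) (hK.nonneg _))

theorem summable_pair (hK : Bd K N) (hL : Bd L M) :
    Summable fun p : G × G => N p.1 * M p.2 :=
  hK.summable.mul_of_nonneg hL.summable hK.nonneg hL.nonneg

/-- The dominating function of a product. -/
noncomputable def conv (N M : G → ℝ) (h : G) : ℝ := ∑' u, N u * M (u⁻¹ * h)

/-- The equivalence `(h, u) ↦ (u, u⁻¹ * h)`. -/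
def shear : G × G ≃ G × G where
  toFun p := (p.2, p.2⁻¹ * p.1)
  invFun p := (p.1 * p.2, p.1)
  left_inv p := by simp
  right_inv p := by simp

theorem summable_shear (hK : Bd K N) (hL : Bd L M) :
    Summable fun p : G × G => N p.2 * M (p.2⁻¹ * p.1) :=
  (shear.summable_iff (f := fun p : G × G => N p.1 * M p.2)).2 (hK.summable_pair hL)

theorem tsum_conv (hK : Bd K N) (hL : Bd L M) :
    ∑' h, conv N M h = (∑' h, N h) * ∑' h, M h := by
  rw [hK.summable.tsum_mul_tsum hL.summable (hK.summable_pair hL),
    ← shear.tsum_eq (fun p : G × G => N p.1 * M p.2)]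
  exact ((hK.summable_shear hL).tsum_prod).symm

theorem mul (hK : Bd K N) (hL : Bd L M) :
    Bd (fun a b => ∑' c, K a c * L c b) (conv N M) where
  summable := (hK.summable_shear hL).prod
  bound a b := by
    have hs : Summable fun u => N u * M (u⁻¹ * (a * b⁻¹)) :=
      (hK.summable_shear hL).prod_factor (a * b⁻¹)
    refine tsum_of_norm_bounded
      (((divL a).hasSum_iff (f := fun u => N u * M (u⁻¹ * (a * b⁻¹)))).2 hs.hasSum) fun c => ?_
    refine (norm_mul_le _ _).trans ?_
    have hb := mul_le_mul (hK.bound a c) (hL.bound c b) (norm_nonneg _) (hK.nonneg _)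
    simpa [divL, mul_assoc] using hb

end Bd

variable (A) in
/-- Kernels invariant under the right action of the centraliser of `g`, with a dominating
summable function. -/
def kern (g : G) : AddSubgroup (G → G → A) where
  carrier := {K | (∀ a b c, Commute c g → K (a * c) (b * c) = K a b) ∧ ∃ N, Bd K N}
  zero_mem' := ⟨fun _ _ _ _ => rfl, 0, summable_zero, fun _ _ => by simp⟩
  add_mem' := by
    rintro K L ⟨hK, N, hN⟩ ⟨hL, M, hM⟩
    refine ⟨fun a b c hc => ?_, N + M, hN.summable.add hM.summable, fun a b => ?_⟩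
    · simp only [Pi.add_apply, hK a b c hc, hL a b c hc]
    · exact (norm_add_le _ _).trans (add_le_add (hN.bound a b) (hM.bound a b))
  neg_mem' := by
    rintro K ⟨hK, N, hN⟩
    refine ⟨fun a b c hc => ?_, N, hN.summable, fun a b => ?_⟩
    · simp only [Pi.neg_apply, hK a b c hc]
    · simpa only [Pi.neg_apply, norm_neg] using hN.bound a b

variable {g : G}

theorem exists_bd (K : kern A g) : ∃ N, Bd (K : G → G → A) N := K.2.2

theorem inv_right (K : kern A g) (a b : G) {c : G} (hc : Commute c g) :
    (K : G → G → A) (a * c) (b * c) = (K : G → G → A) a b := K.2.1 a b c hc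

noncomputable instance : Mul (kern A g) where
  mul K L := ⟨fun a b => ∑' c, (K : G → G → A) a c * (L : G → G → A) c b,
    fun a b c hc => by
      show (∑' d, (K : G → G → A) (a * c) d * (L : G → G → A) d (b * c)) = _
      rw [← (Equiv.mulRight c).tsum_eq fun d => (K : G → G → A) (a * c) d * (L : G → G → A) d (b * c)]
      simp only [Equiv.coe_mulRight, inv_right _ _ _ hc],
    by
      obtain ⟨N, hN⟩ := exists_bd K
      obtain ⟨M, hM⟩ := exists_bd L
      exact ⟨_, hN.mul hM⟩⟩

theorem mul_apply (K L : kern A g) (a b : G) :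
    ((K * L : kern A g) : G → G → A) a b = ∑' c, (K : G → G → A) a c * (L : G → G → A) c b :=
  (rfl)

theorem summable_entry (K L : kern A g) (a b : G) :
    Summable fun c => (K : G → G → A) a c * (L : G → G → A) c b := by
  obtain ⟨N, hN⟩ := exists_bd K
  obtain ⟨M, hM⟩ := exists_bd L
  exact hN.summable_mul hM a b

theorem kern_ext {K L : kern A g} (h : ∀ a b, (K : G → G → A) a b = (L : G → G → A) a b) : K = L :=
  Subtype.ext (funext fun a => funext (h a))

theorem kern_mul_assoc (K L P : kern A g) : K * L * P = K * (L * P) := by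
  refine kern_ext fun a b => ?_
  simp only [mul_apply]
  rw [tsum_congr fun c => ((summable_entry K L a c).tsum_mul_right _).symm,
    tsum_congr fun d => ((summable_entry L P d b).tsum_mul_left _).symm]
  obtain ⟨N, hN⟩ := exists_bd K
  obtain ⟨M, hM⟩ := exists_bd L
  obtain ⟨R, hR⟩ := exists_bd P
  have hs : Summable (uncurry fun c d =>
      (K : G → G → A) a d * (L : G → G → A) d c * (P : G → G → A) c b) := by
    refine Summable.of_norm_bounded
      (g := fun p : G × G => N (a * p.2⁻¹) * M (p.2 * p.1⁻¹) * ∑' y, R y) ?_ fun p => ?_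
    · refine Summable.mul_right _ ((hN.summable_pair hM).comp_injective
        (i := fun p : G × G => (a * p.2⁻¹, p.2 * p.1⁻¹)) ?_)
      rintro ⟨c, d⟩ ⟨c', d'⟩ h
      simp only [Prod.mk.injEq, mul_right_inj, inv_inj] at h
      obtain ⟨rfl, h⟩ := h
      simp_all
    · refine (norm_mul_le _ _).trans (mul_le_mul ((norm_mul_le _ _).trans
        (mul_le_mul (hN.bound _ _) (hM.bound _ _) (norm_nonneg _) (hN.nonneg _)))
        ((hR.bound _ _).trans (hR.le_tsum _)) (norm_nonneg _)
        (mul_nonneg (hN.nonneg _) (hM.nonneg _)))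
  rw [← hs.tsum_comm]
  simp only [mul_assoc]

noncomputable instance : NonUnitalRing (kern A g) where
  __ := (inferInstance : AddCommGroup (kern A g))
  left_distrib K L P := kern_ext fun a b => by
    simp only [mul_apply, AddSubgroup.coe_add, Pi.add_apply, mul_add,
      (summable_entry K L a b).tsum_add (summable_entry K P a b)]
  right_distrib K L P := kern_ext fun a b => by
    simp only [mul_apply, AddSubgroup.coe_add, Pi.add_apply, add_mul,
      (summable_entry K P a b).tsum_add (summable_entry L P a b)]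
  zero_mul K := kern_ext fun a b => by simp [mul_apply]
  mul_zero K := kern_ext fun a b => by simp [mul_apply]
  mul_assoc := kern_mul_assoc

variable [NormedSpace ℂ A] (T : A →L[ℂ] ℂ)

/-- Representative of a coset of the centraliser. -/
noncomputable def rep (σ : G ⧸ Subgroup.centralizer ({g} : Set G)) : G := Quotient.out σ

theorem commute_of_mk_eq {a b : G}
    (h : (a : G ⧸ Subgroup.centralizer ({g} : Set G)) = b) : Commute (a⁻¹ * b) g :=
  (Subgroup.mem_centralizer_singleton_iff.1 (QuotientGroup.eq.1 h))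

theorem mk_rep (σ : G ⧸ Subgroup.centralizer ({g} : Set G)) :
    ((rep σ : G) : G ⧸ Subgroup.centralizer ({g} : Set G)) = σ := QuotientGroup.out_eq' σ

theorem conj_injective :
    Injective fun σ : G ⧸ Subgroup.centralizer ({g} : Set G) => rep σ * g * (rep σ)⁻¹ := by
  intro σ τ h
  rw [← mk_rep σ, ← mk_rep τ, QuotientGroup.eq, Subgroup.mem_centralizer_singleton_iff]
  simp only at h
  have := congrArg (fun x => (rep σ)⁻¹ * x * rep τ) h
  simp only [mul_assoc, inv_mul_cancel_left, inv_mul_cancel, mul_one] at this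
  simpa [mul_assoc] using this.symm

/-- The trace at the conjugacy class of `g`. -/
noncomputable def tau (K : kern A g) : ℂ :=
  ∑' σ : G ⧸ Subgroup.centralizer ({g} : Set G), T ((K : G → G → A) (rep σ * g) (rep σ))

theorem norm_tau_term {K : kern A g} {N : G → ℝ} (h : Bd (K : G → G → A) N)
    (σ : G ⧸ Subgroup.centralizer ({g} : Set G)) :
    ‖T ((K : G → G → A) (rep σ * g) (rep σ))‖ ≤ ‖T‖ * N (rep σ * g * (rep σ)⁻¹) :=
  (T.le_opNorm _).trans (mul_le_mul_of_nonneg_left (h.bound _ _) (norm_nonneg _))

theorem summable_tau (K : kern A g) :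
    Summable fun σ : G ⧸ Subgroup.centralizer ({g} : Set G) =>
      T ((K : G → G → A) (rep σ * g) (rep σ)) := by
  obtain ⟨N, hN⟩ := exists_bd K
  exact Summable.of_norm_bounded ((hN.summable.comp_injective conj_injective).mul_left ‖T‖)
    (norm_tau_term T hN)

theorem norm_tau_le {K : kern A g} {N : G → ℝ} (h : Bd (K : G → G → A) N) :
    ‖tau T K‖ ≤ ‖T‖ * ∑' x, N x := by
  have hs := h.summable.comp_injective (conj_injective (g := g))
  refine (tsum_of_norm_bounded (hs.mul_left ‖T‖).hasSum (norm_tau_term T h)).trans ?_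
  rw [tsum_mul_left]
  exact mul_le_mul_of_nonneg_left
    (tsum_comp_le_tsum_of_inj h.summable h.nonneg (conj_injective (g := g))) (norm_nonneg _)

theorem tau_sub (K L : kern A g) : tau T (K - L) = tau T K - tau T L := by
  simp only [tau, AddSubgroup.coe_sub, Pi.sub_apply, map_sub]
  exact (summable_tau T K).tsum_sub (summable_tau T L)

/-- The reindexing behind the trace property. -/
noncomputable def swapIdx (p : (G ⧸ Subgroup.centralizer ({g} : Set G)) × G) :
    (G ⧸ Subgroup.centralizer ({g} : Set G)) × G :=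
  ((p.2 : G ⧸ Subgroup.centralizer ({g} : Set G)),
    rep p.1 * g * (p.2⁻¹ * rep (p.2 : G ⧸ Subgroup.centralizer ({g} : Set G))))

theorem swapIdx_involutive : Involutive (swapIdx (g := g)) := by
  rintro ⟨σ, b⟩
  simp only [swapIdx]
  set σ' : G ⧸ Subgroup.centralizer ({g} : Set G) := ((b : G) : G ⧸ Subgroup.centralizer ({g} : Set G)) with hσ'
  set c := b⁻¹ * rep σ' with hcdef
  have hc : Commute c g := commute_of_mk_eq (by rw [mk_rep])
  have hmk : ((rep σ * g * c : G) : G ⧸ Subgroup.centralizer ({g} : Set G)) = σ := by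
    conv_rhs => rw [← mk_rep σ]
    refine (QuotientGroup.eq.2 (Subgroup.mem_centralizer_singleton_iff.2 ?_)).symm
    show Commute ((rep σ)⁻¹ * (rep σ * g * c)) g
    simp only [mul_assoc, inv_mul_cancel_left]
    exact (Commute.refl g).mul_left hc
  rw [hmk]
  refine Prod.ext rfl ?_
  show rep σ' * g * ((rep σ * g * c)⁻¹ * rep σ) = b
  have hr : rep σ' = b * c := by simp [hcdef]
  rw [hr]
  simp only [mul_inv_rev, mul_assoc, inv_mul_cancel, mul_one]
  rw [← mul_assoc g, ← hc.inv_left.eq]
  simp [mul_assoc]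

theorem tau_comm (hT : ∀ x y, T (x * y) = T (y * x)) (K L : kern A g) :
    tau T (K * L) = tau T (L * K) := by
  have key : ∀ K L : kern A g, tau T (K * L) =
      ∑' p : (G ⧸ Subgroup.centralizer ({g} : Set G)) × G,
        T ((K : G → G → A) (rep p.1 * g) p.2 * (L : G → G → A) p.2 (rep p.1)) := by
    intro K L
    obtain ⟨N, hN⟩ := exists_bd K
    obtain ⟨M, hM⟩ := exists_bd L
    have hs : Summable fun p : (G ⧸ Subgroup.centralizer ({g} : Set G)) × G =>
        T ((K : G → G → A) (rep p.1 * g) p.2 * (L : G → G → A) p.2 (rep p.1)) := by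
      refine Summable.of_norm_bounded (((hN.summable_pair hM).comp_injective
        (i := fun p : (G ⧸ Subgroup.centralizer ({g} : Set G)) × G =>
          (rep p.1 * g * p.2⁻¹, p.2 * (rep p.1)⁻¹)) ?_).mul_left ‖T‖) fun p => ?_
      · rintro ⟨σ, b⟩ ⟨σ', b'⟩ h
        simp only [Prod.mk.injEq] at h
        have hσ : σ = σ' := conj_injective (by
          have := congrArg₂ (· * ·) h.1 h.2
          simpa [mul_assoc] using this)
        subst hσ
        simpa using h.2
      · exact (T.le_opNorm _).trans (mul_le_mul_of_nonneg_left ((norm_mul_le _ _).trans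
          (mul_le_mul (hN.bound _ _) (hM.bound _ _) (norm_nonneg _) (hN.nonneg _))) (norm_nonneg _))
    rw [hs.tsum_prod]
    exact tsum_congr fun σ => by rw [mul_apply, T.map_tsum (summable_entry K L _ _)]
  rw [key, key, ← (swapIdx_involutive (g := g)).toPerm.tsum_eq fun p =>
    T ((L : G → G → A) (rep p.1 * g) p.2 * (K : G → G → A) p.2 (rep p.1))]
  refine tsum_congr fun p => ?_
  obtain ⟨σ, b⟩ := p
  simp only [Involutive.coe_toPerm, swapIdx]
  set σ' : G ⧸ Subgroup.centralizer ({g} : Set G) := ((b : G) : G ⧸ Subgroup.centralizer ({g} : Set G)) with hσ'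
  set c := b⁻¹ * rep σ' with hcdef
  have hc : Commute c g := commute_of_mk_eq (by rw [mk_rep])
  have hr : rep σ' = b * c := by simp [hcdef]
  rw [hT, hr]
  congr 2
  · rw [show b * c * g = b * (c * g) from mul_assoc _ _ _, show rep σ * g * c = rep σ * (c * g) by
      rw [mul_assoc, hc.eq], inv_right _ _ _ (hc.mul_left (Commute.refl g))]
  · rw [inv_right _ _ _ hc]

/-- Odd powers of the difference of two idempotents. -/
noncomputable def oddPow (d : kern A g) : ℕ → kern A g
  | 0 => d
  | n + 1 => d * d * oddPow d n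

theorem tau_oddPow (hT : ∀ x y, T (x * y) = T (y * x)) {p r : kern A g} (hp : p * p = p)
    (hr : r * r = r) (n : ℕ) : tau T (oddPow (p - r) n) = tau T (p - r) := by
  have hpd : ∀ x, (p - r) * (p - r) * (p * x) = p * ((p - r) * (p - r) * x) := fun x => by
    simp only [mul_sub, sub_mul, ← mul_assoc, hp, hr]
    simp only [mul_assoc, hp, hr]
    abel
  have hrd : ∀ x, (p - r) * (p - r) * (r * x) = r * ((p - r) * (p - r) * x) := fun x => by
    simp only [mul_sub, sub_mul, ← mul_assoc, hp, hr]
    simp only [mul_assoc, hp, hr]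
    abel
  have hp' : p * ((p - r) * (p - r)) = (p - r) * (p - r) * p := by
    simp only [mul_sub, sub_mul, ← mul_assoc, hp, hr]
    simp only [mul_assoc, hp, hr]
    abel
  have hr' : r * ((p - r) * (p - r)) = (p - r) * (p - r) * r := by
    simp only [mul_sub, sub_mul, ← mul_assoc, hp, hr]
    simp only [mul_assoc, hp, hr]
    abel
  have hd3 : (p - r) * (p - r) * (p - r) = (p - r) - (p * r * p - r * p * r) := by
    simp only [mul_sub, sub_mul, mul_assoc, hp, hr]
    abel
  have h0 : ∀ a b : kern A g, a * a = a → tau T (a * b * a) = tau T (a * b) := fun a b ha => by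
    rw [tau_comm T hT, ← mul_assoc, ha]
  -- the multipliers `x` below commute with `p` and `r`
  have step : ∀ x : kern A g, p * x = x * p → r * x = x * r →
      tau T (x * ((p - r) * (p - r) * (p - r))) = tau T (x * (p - r)) := by
    intro x hxp hxr
    rw [hd3, mul_sub x (p - r), tau_sub, sub_eq_self, mul_sub, tau_sub, sub_eq_zero]
    have e1 : tau T (x * (p * r * p)) = tau T (x * (p * r)) := by
      calc tau T (x * (p * r * p)) = tau T (p * (x * r) * p) := by
            rw [← mul_assoc, ← mul_assoc, ← hxp]; simp only [mul_assoc]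
        _ = tau T (p * (x * r)) := h0 _ _ hp
        _ = _ := by rw [← mul_assoc, hxp, mul_assoc]
    have e2 : tau T (x * (r * p * r)) = tau T (x * (r * p)) := by
      calc tau T (x * (r * p * r)) = tau T (r * (x * p) * r) := by
            rw [← mul_assoc, ← mul_assoc, ← hxr]; simp only [mul_assoc]
        _ = tau T (r * (x * p)) := h0 _ _ hr
        _ = _ := by rw [← mul_assoc, hxr, mul_assoc]
    rw [e1, e2, ← mul_assoc x r, ← hxr, mul_assoc, tau_comm T hT r, mul_assoc]
  -- even powers commute with `p` and `r`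
  let E : ℕ → kern A g := fun m => Nat.rec ((p - r) * (p - r)) (fun _ x => (p - r) * (p - r) * x) m
  have hE : ∀ m, p * E m = E m * p ∧ r * E m = E m * r := by
    intro m
    induction m with
    | zero => exact ⟨hp', hr'⟩
    | succ m ih =>
      exact ⟨by show p * ((p - r) * (p - r) * E m) = _; rw [← hpd, ih.1, ← mul_assoc],
        by show r * ((p - r) * (p - r) * E m) = _; rw [← hrd, ih.2, ← mul_assoc]⟩
  have hodd : ∀ m, oddPow (p - r) (m + 1) = E m * (p - r) := by
    intro m
    induction m with
    | zero => rfl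
    | succ m ih =>
      show (p - r) * (p - r) * oddPow (p - r) (m + 1) = (p - r) * (p - r) * E m * (p - r)
      rw [ih, mul_assoc ((p - r) * (p - r))]
  have h1 : tau T (oddPow (p - r) 1) = tau T (p - r) := by
    show tau T ((p - r) * (p - r) * (p - r)) = _
    rw [hd3, tau_sub, sub_eq_self, tau_sub, sub_eq_zero, h0 _ _ hp, h0 _ _ hr, tau_comm T hT]
  induction n with
  | zero => rfl
  | succ m ih =>
    cases m with
    | zero => exact h1
    | succ m =>
      rw [← ih, hodd, hodd]
      show tau T ((p - r) * (p - r) * E m * (p - r)) = _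
      have hEd : (p - r) * (p - r) * E m = E m * ((p - r) * (p - r)) := by
        have e : (p - r) * E m = E m * (p - r) := by rw [sub_mul, mul_sub, (hE m).1, (hE m).2]
        rw [mul_assoc, e, ← mul_assoc, e, mul_assoc]
      rw [hEd, mul_assoc]
      exact step (E m) (hE m).1 (hE m).2

theorem bd_oddPow {d : kern A g} {N : G → ℝ} (h : Bd (d : G → G → A) N) :
    ∀ n, ∃ M, Bd ((oddPow d n : kern A g) : G → G → A) M ∧ ∑' x, M x = (∑' x, N x) ^ (2 * n + 1)
  | 0 => ⟨N, h, by simp⟩
  | n + 1 => by
    obtain ⟨M, hM, hsum⟩ := bd_oddPow h n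
    have hdd : Bd ((d * d : kern A g) : G → G → A) (Bd.conv N N) := h.mul h
    refine ⟨Bd.conv (Bd.conv N N) M, hdd.mul hM, ?_⟩
    rw [hdd.tsum_conv hM, h.tsum_conv h, hsum]
    ring

/-- Two idempotent kernels at distance less than one have the same trace. -/
theorem tau_eq_of_close (hT : ∀ x y, T (x * y) = T (y * x)) {p r : kern A g} (hp : p * p = p)
    (hr : r * r = r) {N : G → ℝ} (h : Bd ((p - r : kern A g) : G → G → A) N)
    (hlt : ∑' x, N x < 1) : tau T p = tau T r := by
  rw [← sub_eq_zero, ← tau_sub]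
  have h0 := h.tsum_nonneg
  have hbound : ∀ n : ℕ, ‖tau T (p - r)‖ ≤ ‖T‖ * (∑' x, N x) ^ (2 * n + 1) := fun n => by
    obtain ⟨M, hM, hsum⟩ := bd_oddPow h n
    rw [← tau_oddPow T hT hp hr n, ← hsum]
    exact norm_tau_le T hM
  have hlim : Filter.Tendsto (fun n : ℕ => ‖T‖ * (∑' x, N x) ^ (2 * n + 1)) Filter.atTop
      (nhds (‖T‖ * 0)) :=
    tendsto_const_nhds.mul ((tendsto_pow_atTop_nhds_zero_of_lt_one h0 hlt).comp
      (Filter.tendsto_atTop_mono (fun n => (by omega : n ≤ 2 * n + 1)) Filter.tendsto_id))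
  rw [mul_zero] at hlim
  exact norm_le_zero_iff.1 (ge_of_tendsto' hlim hbound)

end Vale.P184.Twist
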