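import Vale.Agent.P184.Statement
import Vale.Agent.P184.Twist.Kernel

/-!
P184: the trace of an idempotent vanishes at the class of `g` when the centraliser of `g` has a
character, dominated by a length function of the whole group, which does not vanish at `g`.
-/

namespace Vale.P184.Twist

open Filter Topology

open scoped Matrix.Norms.Operator

variable {G : Type*} [Group G] {g : G}

/-- A real character of the centraliser of `g`, dominated by a length function on `G`. -/
structure Dominated (g : G) (ℓ χ : G → ℝ) : Prop where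
  sub_add : ∀ a b, ℓ (a * b) ≤ ℓ a + ℓ b
  symm : ∀ a, ℓ a⁻¹ = ℓ a
  add : ∀ a b, Commute a g → Commute b g → χ (a * b) = χ a + χ b
  le : ∀ c, Commute c g → |χ c| ≤ ℓ c

variable {ℓ χ : G → ℝ}

/-- The extension of the character to the group. -/
noncomputable def psi (g : G) (ℓ χ : G → ℝ) (x : G) : ℝ :=
  ⨅ c : {c : G // Commute c g}, (χ c + ℓ (x * (c : G)⁻¹))

instance (g : G) : Nonempty {c : G // Commute c g} := ⟨⟨1, Commute.one_left g⟩⟩

namespace Dominated

variable (h : Dominated g ℓ χ)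
include h

theorem low (x : G) (c : {c : G // Commute c g}) : -ℓ x ≤ χ c + ℓ (x * (c : G)⁻¹) := by
  have h1 := (abs_le.1 (h.le c c.2)).1
  have h2 : ℓ (c : G) ≤ ℓ ((x * (c : G)⁻¹)⁻¹) + ℓ x := by
    simpa [mul_assoc] using h.sub_add ((x * (c : G)⁻¹)⁻¹) x
  rw [h.symm] at h2
  linarith

theorem bdd (x : G) : BddBelow (Set.range fun c : {c : G // Commute c g} =>
    χ c + ℓ (x * (c : G)⁻¹)) := ⟨-ℓ x, by rintro _ ⟨c, rfl⟩; exact h.low x c⟩

theorem psi_mul_le (a x : G) : psi g ℓ χ (a * x) ≤ ℓ a + psi g ℓ χ x := by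
  rw [← sub_le_iff_le_add']
  refine le_ciInf fun c => ?_
  rw [sub_le_iff_le_add']
  refine (ciInf_le (h.bdd (a * x)) c).trans ?_
  have := h.sub_add a (x * (c : G)⁻¹)
  rw [← mul_assoc] at this
  linarith

theorem abs_psi_sub (a b : G) : |psi g ℓ χ a - psi g ℓ χ b| ≤ ℓ (a * b⁻¹) := by
  have h1 := h.psi_mul_le (a * b⁻¹) b
  have h2 := h.psi_mul_le (a * b⁻¹)⁻¹ a
  rw [h.symm] at h2
  simp only [inv_mul_cancel_right, mul_inv_rev, inv_inv, mul_assoc, inv_mul_cancel, mul_one] at h1 h2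
  rw [abs_le]; constructor <;> linarith

theorem psi_mul_right (x : G) {c : G} (hc : Commute c g) :
    psi g ℓ χ (x * c) = psi g ℓ χ x + χ c := by
  have key : ∀ (x c : G), Commute c g → psi g ℓ χ (x * c) ≤ psi g ℓ χ x + χ c := by
    intro x c hc
    rw [← sub_le_iff_le_add]
    refine le_ciInf fun d => ?_
    rw [sub_le_iff_le_add]
    refine (ciInf_le (h.bdd (x * c)) ⟨(d : G) * c, d.2.mul_left hc⟩).trans ?_
    simp only [h.add _ _ d.2 hc, mul_inv_rev, mul_assoc, mul_inv_cancel_left]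
    linarith
  refine le_antisymm (key x c hc) ?_
  have h1 := key (x * c) c⁻¹ hc.inv_left
  have h2 := h.add c c⁻¹ hc hc.inv_left
  have h3 := h.add 1 1 (Commute.one_left g) (Commute.one_left g)
  rw [mul_inv_cancel] at h2
  rw [mul_inv_cancel_right] at h1
  rw [one_mul] at h3
  linarith

theorem nonneg (a : G) : 0 ≤ ℓ a := by
  have h1 := h.sub_add a a⁻¹
  have h2 := h.sub_add 1 1
  rw [h.symm, mul_inv_cancel] at h1
  rw [one_mul] at h2
  linarith

end Dominated

variable {q : ℕ} {e : Fin q → Fin q → G → ℂ}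

/-- The matrix of coefficients at `x`. -/
def mat (e : Fin q → Fin q → G → ℂ) (x : G) : Matrix (Fin q) (Fin q) ℂ :=
  Matrix.of fun i j => e i j x

theorem norm_mat_le (x : G) : ‖mat e x‖ ≤ ∑ i, ∑ j, ‖e i j x‖ := by
  have h : ‖mat e x‖₊ ≤ ∑ i, ∑ j, ‖e i j x‖₊ := by
    rw [Matrix.linfty_opNNNorm_def]
    exact Finset.sup_le fun i hi =>
      Finset.single_le_sum (f := fun i => ∑ j, ‖e i j x‖₊) (fun _ _ => zero_le) hi
  have h2 : ((‖mat e x‖₊ : NNReal) : ℝ) ≤ ((∑ i, ∑ j, ‖e i j x‖₊ : NNReal) : ℝ) := NNReal.coe_le_coe.2 h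
  simpa only [NNReal.coe_sum, coe_nnnorm] using h2

/-- The phase between two points. -/
noncomputable def phase (g : G) (ℓ χ : G → ℝ) (t : ℝ) (a b : G) : ℂ :=
  Complex.exp (Complex.I * ((t * (psi g ℓ χ a - psi g ℓ χ b) : ℝ) : ℂ))

theorem norm_phase (t : ℝ) (a b : G) : ‖phase g ℓ χ t a b‖ = 1 := by
  rw [phase, mul_comm, Complex.norm_exp_ofReal_mul_I]

/-- Entrywise mass of `e`. -/
noncomputable def mass (e : Fin q → Fin q → G → ℂ) (x : G) : ℝ := ∑ i, ∑ j, ‖e i j x‖

/-- The kernel of `e` twisted by the phase. -/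
noncomputable def ker' (h : Dominated g ℓ χ) (he : IsL1Idempotent e) (t : ℝ) :
    kern (Matrix (Fin q) (Fin q) ℂ) g :=
  ⟨fun a b => phase g ℓ χ t a b • mat e (a * b⁻¹),
    fun a b c hc => by
      simp only [phase, h.psi_mul_right _ hc, mul_inv_rev, mul_assoc, mul_inv_cancel_left,
        add_sub_add_right_eq_sub],
    mass e, summable_sum (fun i _ => summable_sum fun j _ => he.1 i j), fun a b => by
      rw [norm_smul, norm_phase, one_mul]; exact norm_mat_le _⟩

theorem ker'_apply (h : Dominated g ℓ χ) (he : IsL1Idempotent e) (t : ℝ) (a b : G) :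
    (ker' h he t : G → G → Matrix (Fin q) (Fin q) ℂ) a b = phase g ℓ χ t a b • mat e (a * b⁻¹) :=
  (rfl)

theorem ker'_idem (h : Dominated g ℓ χ) (he : IsL1Idempotent e) (t : ℝ) :
    ker' h he t * ker' h he t = ker' h he t := by
  refine kern_ext fun a b => ?_
  have hs := summable_entry (ker' h he t) (ker' h he t) a b
  rw [mul_apply, ker'_apply]
  have hp : ∀ c, phase g ℓ χ t a c * phase g ℓ χ t c b = phase g ℓ χ t a b := fun c => by
    rw [phase, phase, phase, ← Complex.exp_add, ← mul_add, ← Complex.ofReal_add]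
    congr 3; ring
  ext i j
  let E : Matrix (Fin q) (Fin q) ℂ →L[ℂ] ℂ :=
    LinearMap.toContinuousLinearMap (Matrix.entryLinearMap ℂ ℂ i j)
  refine (E.map_tsum hs).trans ?_
  show (∑' c, ((ker' h he t : G → G → Matrix (Fin q) (Fin q) ℂ) a c *
    (ker' h he t : G → G → Matrix (Fin q) (Fin q) ℂ) c b) i j) = _
  have hterm : ∀ c, ((ker' h he t : G → G → Matrix (Fin q) (Fin q) ℂ) a c *
      (ker' h he t : G → G → Matrix (Fin q) (Fin q) ℂ) c b) i j =
      phase g ℓ χ t a b * ∑ k, e i k (a * c⁻¹) * e k j (c * b⁻¹) := by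
    intro c
    simp only [ker'_apply, Matrix.mul_apply, Matrix.smul_apply, smul_eq_mul, mat, Matrix.of_apply,
      Finset.mul_sum]
    exact Finset.sum_congr rfl fun k _ => by rw [← hp c]; ring
  rw [tsum_congr hterm, tsum_mul_left, Matrix.smul_apply, smul_eq_mul]
  congr 1
  let φ : G ≃ G := (Bd.divL a)
  have hk : ∀ k, Summable fun c => e i k (a * c⁻¹) * e k j (c * b⁻¹) := fun k => by
    refine Summable.of_norm_bounded (g := fun c => ‖e i k (a * c⁻¹)‖ * ∑' x, ‖e k j x‖)
      (((φ.summable_iff (f := fun x => ‖e i k x‖)).2 (he.1 i k)).mul_right _) fun c => ?_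
    rw [norm_mul]
    exact mul_le_mul_of_nonneg_left ((he.1 k j).le_tsum _ fun _ _ => norm_nonneg _) (norm_nonneg _)
  show _ = e i j (a * b⁻¹)
  rw [Summable.tsum_finsetSum fun k _ => hk k, ← he.2 i j (a * b⁻¹)]
  refine Finset.sum_congr rfl fun k _ => ?_
  rw [← φ.tsum_eq fun x => e i k x * e k j (x⁻¹ * (a * b⁻¹))]
  exact tsum_congr fun c => by simp [φ, Bd.divL, mul_assoc]

/-- The trace as a continuous functional. -/
noncomputable def trL (q : ℕ) : Matrix (Fin q) (Fin q) ℂ →L[ℂ] ℂ :=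
  LinearMap.toContinuousLinearMap (Matrix.traceLinearMap (Fin q) ℂ ℂ)

theorem trL_apply (M : Matrix (Fin q) (Fin q) ℂ) : trL q M = M.trace := (rfl)

/-- Cosets of the centraliser parametrise the conjugacy class. -/
noncomputable def classEquiv (g : G) :
    (G ⧸ Subgroup.centralizer ({g} : Set G)) ≃ (ConjClasses.mk g).carrier :=
  Equiv.ofBijective (fun σ => ⟨rep σ * g * (rep σ)⁻¹, by
    rw [ConjClasses.mem_carrier_iff_mk_eq, ConjClasses.mk_eq_mk_iff_isConj]
    exact (isConj_iff.2 ⟨rep σ, rfl⟩).symm⟩) ⟨fun σ τ h => conj_injective (Subtype.ext_iff.1 h), by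
    rintro ⟨x, hx⟩
    rw [ConjClasses.mem_carrier_iff_mk_eq, ConjClasses.mk_eq_mk_iff_isConj] at hx
    obtain ⟨s, hs⟩ := isConj_iff.1 hx.symm
    refine ⟨(s : G ⧸ Subgroup.centralizer ({g} : Set G)), Subtype.ext ?_⟩
    have hc : Commute (s⁻¹ * rep (s : G ⧸ Subgroup.centralizer ({g} : Set G))) g :=
      commute_of_mk_eq (by rw [mk_rep])
    set c := s⁻¹ * rep (s : G ⧸ Subgroup.centralizer ({g} : Set G)) with hcdef
    have : rep (s : G ⧸ Subgroup.centralizer ({g} : Set G)) = s * c := by simp [hcdef]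
    show rep (s : G ⧸ Subgroup.centralizer ({g} : Set G)) * g * _ = x
    rw [this, mul_assoc s, hc.eq, ← hs]
    simp [mul_assoc]⟩

theorem tau_ker' (h : Dominated g ℓ χ) (he : IsL1Idempotent e) (t : ℝ) :
    tau (trL q) (ker' h he t) =
      Complex.exp (Complex.I * ((t * χ g : ℝ) : ℂ)) * hsCoeff e (ConjClasses.mk g).carrier := by
  unfold tau hsCoeff
  rw [← (classEquiv g).tsum_eq fun x : (ConjClasses.mk g).carrier => ∑ i, e i i (x : G), ← tsum_mul_left]
  refine tsum_congr fun σ => ?_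
  show (phase g ℓ χ t (rep σ * g) (rep σ) • mat e (rep σ * g * (rep σ)⁻¹)).trace = _
  rw [Matrix.trace_smul, smul_eq_mul]
  congr 1
  rw [phase, h.psi_mul_right _ (Commute.refl g), add_sub_cancel_left]

/-- **Vanishing of the coefficient.** -/
theorem hsCoeff_eq_zero (h : Dominated g ℓ χ) (hg : χ g ≠ 0) (he : IsL1Idempotent e) :
    hsCoeff e (ConjClasses.mk g).carrier = 0 := by
  have hn : Summable (mass e) := summable_sum fun i _ => summable_sum fun j _ => he.1 i j
  have hm0 : ∀ x, 0 ≤ mass e x := fun x =>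
    Finset.sum_nonneg fun _ _ => Finset.sum_nonneg fun _ _ => norm_nonneg _
  let N : ℝ → G → ℝ := fun t x => mass e x * min 2 (|t| * ℓ x)
  have hN : ∀ t x, ‖N t x‖ ≤ mass e x * 2 := fun t x => by
    rw [Real.norm_of_nonneg (mul_nonneg (hm0 x) (le_min zero_le_two
      (mul_nonneg (abs_nonneg t) (h.nonneg x))))]
    exact mul_le_mul_of_nonneg_left (min_le_left _ _) (hm0 x)
  have hlim : Tendsto (fun t => ∑' x, N t x) (𝓝 0) (𝓝 (∑' _x : G, (0 : ℝ))) := by
    refine tendsto_tsum_of_dominated_convergence (hn.mul_right 2) (fun x => ?_)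
      (Eventually.of_forall fun t => hN t)
    have hc : Continuous fun t : ℝ => N t x := by fun_prop
    convert hc.tendsto 0 using 2
    simp [N]
  rw [tsum_zero] at hlim
  have h1 : ∀ᶠ t : ℝ in 𝓝 0, ∑' x, N t x < 1 ∧ |t * χ g| < 1 := by
    refine (hlim.eventually (gt_mem_nhds one_pos)).and ?_
    have hc : Continuous fun t : ℝ => |t * χ g| := by fun_prop
    exact (hc.tendsto' 0 0 (by simp)).eventually (gt_mem_nhds one_pos)
  obtain ⟨t, ⟨ht1, ht2⟩, ht0⟩ :=
    ((h1.filter_mono nhdsWithin_le_nhds).and (self_mem_nhdsWithin (s := {(0 : ℝ)}ᶜ))).exists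
  have hbd : Bd ((ker' h he t - ker' h he 0 : kern (Matrix (Fin q) (Fin q) ℂ) g) :
      G → G → Matrix (Fin q) (Fin q) ℂ) (N t) := by
    refine ⟨Summable.of_norm_bounded (hn.mul_right 2) (hN t), fun a b => ?_⟩
    simp only [AddSubgroup.coe_sub, Pi.sub_apply, ker'_apply, ← sub_smul, norm_smul]
    rw [mul_comm]
    refine mul_le_mul (norm_mat_le _) ?_ (norm_nonneg _) (hm0 _)
    have e0 : phase g ℓ χ 0 a b = 1 := by simp [phase]
    rw [e0]
    refine le_min ?_ ?_
    · exact (norm_sub_le _ _).trans (by rw [norm_phase, norm_one]; norm_num)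
    · refine Real.norm_exp_I_mul_ofReal_sub_one_le.trans ?_
      rw [Real.norm_eq_abs, abs_mul]
      exact mul_le_mul_of_nonneg_left (h.abs_psi_sub a b) (abs_nonneg t)
  have heq := tau_eq_of_close (trL q) (fun x y => Matrix.trace_mul_comm x y) (ker'_idem h he t)
    (ker'_idem h he 0) hbd ht1
  rw [tau_ker', tau_ker', zero_mul, Complex.ofReal_zero, mul_zero, Complex.exp_zero, one_mul] at heq
  have hne : Complex.exp (Complex.I * ((t * χ g : ℝ) : ℂ)) ≠ 1 := by
    intro hexp
    obtain ⟨k, hk⟩ := Complex.exp_eq_one_iff.1 hexp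
    have hk' : t * χ g = k * (2 * Real.pi) := by
      have := congrArg Complex.im hk
      simpa using this
    rcases eq_or_ne k 0 with rfl | hk0
    · simp only [Int.cast_zero, zero_mul, mul_eq_zero] at hk'
      exact hk'.elim ht0 hg
    · have h1 : (1 : ℝ) ≤ |(k : ℝ)| := by exact_mod_cast Int.one_le_abs hk0
      rw [hk', abs_mul, abs_of_pos Real.two_pi_pos] at ht2
      nlinarith [Real.pi_gt_three]
  have : (Complex.exp (Complex.I * ((t * χ g : ℝ) : ℂ)) - 1) *
      hsCoeff e (ConjClasses.mk g).carrier = 0 := by rw [sub_mul, heq, one_mul, sub_self]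
  exact (mul_eq_zero.1 this).resolve_left (sub_ne_zero.2 hne)

end Vale.P184.Twist
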