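import Vale.Agent.P184.Twist.Cases
import Vale.Agent.P184.Corollaries
import Mathlib.RingTheory.LaurentSeries
import Mathlib.RingTheory.Valuation.Discrete.RankOne
import Mathlib.Analysis.Normed.Unbundled.SpectralNorm
import Mathlib.RingTheory.AlgebraicIndependent.Adjoin
import Mathlib.RingTheory.AlgebraicIndependent.Transcendental

/-!
P184: an absolute value separating a transcendental element from the unit circle.
-/

namespace Vale.P184.Twist

open scoped LaurentSeries

/-- The algebraic closure of the Laurent series field has an absolute value with `X` off the circle. -/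
theorem exists_abs_laurent (F : Type*) [Field F] :
    ∃ v : AbsoluteValue (AlgebraicClosure F⸨X⸩) ℝ,
      v (algebraMap F⸨X⸩ (AlgebraicClosure F⸨X⸩) (HahnSeries.single 1 1)) ≠ 1 := by
  have hv1 : (Valued.v : Valuation F⸨X⸩ (WithZero (Multiplicative ℤ))).IsNontrivial :=
    ⟨⟨HahnSeries.single 1 1, by rw [LaurentSeries.valuation_single_zpow]; exact WithZero.exp_ne_zero,
      by rw [LaurentSeries.valuation_single_zpow, ← WithZero.exp_zero]; exact (WithZero.exp_lt_exp.2 (by norm_num)).ne⟩⟩
  haveI : (Valued.v : Valuation F⸨X⸩ (WithZero (Multiplicative ℤ))).IsRankOneDiscrete := Valuation.IsRankOneDiscrete.mk' _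
  letI : Valuation.RankOne (Valued.v : Valuation F⸨X⸩ (WithZero (Multiplicative ℤ))) :=
    Valuation.IsRankOneDiscrete.rankOne _ (e := 2) one_lt_two
  letI : NontriviallyNormedField F⸨X⸩ := Valued.toNontriviallyNormedField F⸨X⸩ _
  haveI : IsUltrametricDist F⸨X⸩ := inferInstance
  letI : NormedField (AlgebraicClosure F⸨X⸩) :=
    spectralNorm.normedField F⸨X⸩ (AlgebraicClosure F⸨X⸩)
  refine ⟨NormedField.toAbsoluteValue _, ne_of_lt ?_⟩
  show spectralNorm F⸨X⸩ (AlgebraicClosure F⸨X⸩) _ < 1
  rw [spectralNorm_extends, Valued.toNormedField.norm_lt_one_iff,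
    LaurentSeries.valuation_single_zpow, ← WithZero.exp_zero]
  exact WithZero.exp_lt_exp.2 (by norm_num)

theorem transcendental_single (F : Type*) [Field F] :
    Transcendental F (HahnSeries.single 1 1 : F⸨X⸩) := by
  rw [transcendental_iff]
  intro p hp
  suffices key : ∀ p : Polynomial F, Polynomial.aeval (HahnSeries.single 1 1 : F⸨X⸩) p = ((p : PowerSeries F) : F⸨X⸩) by
    rw [key] at hp
    exact Polynomial.coe_eq_zero_iff.1 ((map_eq_zero_iff _ HahnSeries.ofPowerSeries_injective).1 hp)
  intro p
  induction p using Polynomial.induction_on' with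
  | add a b ha hb => simp [ha, hb]
  | monomial n a => simp [HahnSeries.algebraMap_apply', PowerSeries.monomial_eq_C_mul_X_pow, Polynomial.coe_monomial]

theorem exists_abs_of_isAlgebraic {F K : Type*} [Field F] [Field K] [Algebra F K] (r : K)
    (hr : Transcendental F r)
    [Algebra.IsAlgebraic (IntermediateField.adjoin F (Set.range fun _ : Unit => r)) K] :
    ∃ v : AbsoluteValue K ℝ, v r ≠ 1 := by
  obtain ⟨v, hv⟩ := exists_abs_laurent F
  have hx : AlgebraicIndependent F fun _ : Unit => r := algebraicIndependent_unique_type_iff.2 hr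
  let y : Unit → AlgebraicClosure F⸨X⸩ := fun _ => algebraMap F⸨X⸩ _ (HahnSeries.single 1 1)
  have hy : AlgebraicIndependent F y := algebraicIndependent_unique_type_iff.2
    ((transcendental_algebraMap_iff (algebraMap F⸨X⸩ _).injective).2 (transcendental_single F))
  let φ : IntermediateField.adjoin F (Set.range fun _ : Unit => r) →ₐ[F] AlgebraicClosure F⸨X⸩ :=
    ((IntermediateField.adjoin F (Set.range y)).val.comp hy.aevalEquivField.toAlgHom).comp
      hx.aevalEquivField.symm.toAlgHom
  let x : IntermediateField.adjoin F (Set.range fun _ : Unit => r) :=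
    ⟨r, IntermediateField.subset_adjoin _ _ ⟨(), rfl⟩⟩
  have hφ : φ x = y () := by
    have h2 : hx.aevalEquivField.symm x = algebraMap (MvPolynomial Unit F) (FractionRing (MvPolynomial Unit F)) (MvPolynomial.X ()) := by
      rw [AlgEquiv.symm_apply_eq]
      exact Subtype.ext (by rw [hx.aevalEquivField_algebraMap_apply_coe, MvPolynomial.aeval_X])
    show ((hy.aevalEquivField (hx.aevalEquivField.symm x)) : AlgebraicClosure F⸨X⸩) = _
    rw [h2, hy.aevalEquivField_algebraMap_apply_coe, MvPolynomial.aeval_X]
  letI := φ.toRingHom.toAlgebra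
  let ψ : K →ₐ[IntermediateField.adjoin F (Set.range fun _ : Unit => r)] AlgebraicClosure F⸨X⸩ :=
    IsAlgClosed.lift
  have hψ : ψ r = y () := (ψ.commutes x).trans hφ
  refine ⟨v.comp (f := ψ.toRingHom) ψ.injective, ?_⟩
  show v (ψ r) ≠ 1
  rwa [hψ]

/-- A transcendental element is off the unit circle of some absolute value. -/
theorem exists_abs_of_transcendental {F K : Type*} [Field F] [Field K] [Algebra F K] (r : K)
    (hr : Transcendental F r) : ∃ v : AbsoluteValue K ℝ, v r ≠ 1 := by
  haveI : Algebra.IsAlgebraic (Algebra.adjoin F (Set.univ : Set K)) K :=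
    ⟨fun x => isAlgebraic_algebraMap (⟨x, Algebra.subset_adjoin trivial⟩ : Algebra.adjoin F (Set.univ : Set K))⟩
  obtain ⟨B, hrB, -, hB⟩ := exists_isTranscendenceBasis_between (R := F) ({r} : Set K) Set.univ
    (Set.subset_univ _) ((algebraicIndependent_singleton_iff (x := ((↑) : ({r} : Set K) → K)) ⟨r, rfl⟩).2 hr)
  have hr1 : r ∈ B := hrB rfl
  let F' : IntermediateField F K := IntermediateField.adjoin F (((↑) : B → K) '' {(⟨r, hr1⟩ : B)}ᶜ)
  have ht : Transcendental F' r := IntermediateField.transcendental_adjoin_iff.2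
    (hB.1.transcendental_adjoin (s := {(⟨r, hr1⟩ : B)}ᶜ) (i := ⟨r, hr1⟩) (by simp))
  have hle : ∀ b : K, b ∈ IntermediateField.adjoin F (Set.range ((↑) : B → K)) →
      b ∈ IntermediateField.adjoin F' (Set.range fun _ : Unit => r) := by
    intro b hb
    induction hb using IntermediateField.adjoin_induction with
    | mem b hb =>
      obtain ⟨b, rfl⟩ := hb
      by_cases hb : b = ⟨r, hr1⟩
      · subst hb; exact IntermediateField.subset_adjoin _ _ ⟨(), rfl⟩
      · exact IntermediateField.algebraMap_mem _
          (⟨(b : K), IntermediateField.subset_adjoin _ _ ⟨b, hb, rfl⟩⟩ : F')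
    | algebraMap a => exact IntermediateField.algebraMap_mem _ (algebraMap F F' a)
    | add _ _ _ _ h1 h2 => exact add_mem h1 h2
    | inv _ _ h1 => exact inv_mem h1
    | mul _ _ _ _ h1 h2 => exact mul_mem h1 h2
  haveI := hB.isAlgebraic_field
  let f : IntermediateField.adjoin F (Set.range ((↑) : B → K)) →+*
      IntermediateField.adjoin F' (Set.range fun _ : Unit => r) :=
    { toFun := fun b => ⟨b, hle b b.2⟩
      map_one' := rfl
      map_mul' := fun _ _ => rfl
      map_zero' := rfl
      map_add' := fun _ _ => rfl }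
  haveI : Algebra.IsAlgebraic (IntermediateField.adjoin F' (Set.range fun _ : Unit => r)) K :=
    ⟨fun x => IsAlgebraic.ringHom_of_comp_eq (f := f) (g := RingHom.id K)
      (Algebra.IsAlgebraic.isAlgebraic (R := IntermediateField.adjoin F (Set.range ((↑) : B → K))) x)
      f.injective rfl⟩
  exact exists_abs_of_isAlgebraic r ht

variable {G : Type*} [Group G] {g : G} {q : ℕ} {e : Fin q → Fin q → G → ℂ}

/-- In positive characteristic every element of infinite image has zero coefficient. -/
theorem hsCoeff_eq_zero_of_charP {K : Type*} [Field K] {p : ℕ} [CharP K p] (hp : p ≠ 0) {n : ℕ}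
    (ρ : G →* GL (Fin n) K) (hg : ¬ IsOfFinOrder (ρ g)) (he : IsL1Idempotent e) :
    hsCoeff e (ConjClasses.mk g).carrier = 0 := by
  haveI : Fact p.Prime := ⟨(CharP.char_is_prime_or_zero K p).resolve_right hp⟩
  obtain ⟨r, hr, hr1⟩ : ∃ r ∈ ((ρ g : Matrix (Fin n) (Fin n) K)).charpoly.aroots (AlgebraicClosure K),
      ¬ IsOfFinOrder r := by
    by_contra hh; push_neg at hh
    exact hg (isOfFinOrder_of_charP hp _ hh)
  haveI : CharP (AlgebraicClosure K) p := charP_of_injective_algebraMap (algebraMap K _).injective p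
  letI := ZMod.algebra (AlgebraicClosure K) p
  let ρ' : G →* GL (Fin n) (AlgebraicClosure K) :=
    (Matrix.GeneralLinearGroup.map (algebraMap K (AlgebraicClosure K))).comp ρ
  have hroot : ((ρ' g : Matrix (Fin n) (Fin n) (AlgebraicClosure K))).charpoly.IsRoot r := by
    show ((ρ g : Matrix (Fin n) (Fin n) K).map (algebraMap K _)).charpoly.IsRoot r
    rw [Matrix.charpoly_map]
    exact (Polynomial.mem_roots'.1 hr).2
  have hr0 : r ≠ 0 := by
    rintro rfl
    have h2 : ((ρ' g : Matrix (Fin n) (Fin n) (AlgebraicClosure K))).det = 0 := by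
      rw [Matrix.det_eq_sign_charpoly_coeff, Polynomial.coeff_zero_eq_eval_zero, hroot.eq_zero, mul_zero]
    exact (Matrix.GeneralLinearGroup.det_ne_zero _) h2
  have ht : Transcendental (ZMod p) r := fun halg => by
    haveI := IntermediateField.adjoin.finiteDimensional halg.isIntegral
    haveI : Finite (IntermediateField.adjoin (ZMod p) {r}) := Module.finite_of_finite (ZMod p)
    let x : (IntermediateField.adjoin (ZMod p) {r}) := ⟨r, IntermediateField.mem_adjoin_simple_self _ r⟩
    have hx : IsUnit x := isUnit_iff_ne_zero.2 fun h => hr0 (congrArg Subtype.val h)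
    obtain ⟨k, hk, hk1⟩ := isOfFinOrder_iff_pow_eq_one.1 (isOfFinOrder_of_finite hx.unit)
    refine hr1 (isOfFinOrder_iff_pow_eq_one.2 ⟨k, hk, ?_⟩)
    simpa [x] using congrArg (fun u : (IntermediateField.adjoin (ZMod p) {r})ˣ => ((u : IntermediateField.adjoin (ZMod p) {r}) : AlgebraicClosure K)) hk1
  obtain ⟨v, hv⟩ := exists_abs_of_transcendental r ht
  exact hsCoeff_eq_zero_of_eigenvalue v ρ' r hroot hv he

end Vale.P184.Twist
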